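import Mathlib
import Crest.Agent.GAD.Entropy

/-!
# Row 341, WP-E (spectral toolkit), module E0: `posCount`

`posCount H c` = number of eigenvalues (with multiplicity) of the Hermitian matrix `H` that are
strictly above `c` (`0` if `H` is not Hermitian).  Basic API: the count through Mathlib's
`eigenvalues` / sorted `eigenvalues₀` / charpoly roots, the bridge
`c < hH.eigenvalues₀ k ↔ k < posCount H c`, invariance (unitary conjugation, reindexing),
shift, scaling, diagonal and `1 × 1` matrices, and the layer-cake integrals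
`∫⁻ posCount H c dc = ∑ (λ_i)⁺`.
-/

set_option autoImplicit false
set_option linter.unusedSectionVars false

namespace Crest.Agent.GAD.Spec

open Matrix MeasureTheory
open scoped ComplexOrder ENNReal

variable {n m : Type*} [Fintype n] [DecidableEq n] [Fintype m] [DecidableEq m]

/-- Number of eigenvalues of the Hermitian matrix `H` strictly above `c`
(`0` when `H` is not Hermitian). -/
noncomputable def posCount (H : Matrix n n ℂ) (c : ℝ) : ℕ :=
  if h : H.IsHermitian then (Finset.univ.filter fun i => c < h.eigenvalues i).card else 0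

theorem posCount_eq_card {H : Matrix n n ℂ} (hH : H.IsHermitian) (c : ℝ) :
    posCount H c = (Finset.univ.filter fun i => c < hH.eigenvalues i).card := by
  unfold posCount
  rw [dif_pos hH]

theorem posCount_of_not_isHermitian {H : Matrix n n ℂ} (hH : ¬ H.IsHermitian) (c : ℝ) :
    posCount H c = 0 := by
  unfold posCount
  rw [dif_neg hH]

/-- the count as a real sum of indicators -/
theorem posCount_eq_sum {H : Matrix n n ℂ} (hH : H.IsHermitian) (c : ℝ) :
    (posCount H c : ℝ) = ∑ i, if c < hH.eigenvalues i then (1 : ℝ) else 0 := by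
  rw [posCount_eq_card hH, Finset.card_filter]
  push_cast
  rfl

/-- the count through the roots of the characteristic polynomial -/
theorem posCount_eq_roots {H : Matrix n n ℂ} (hH : H.IsHermitian) (c : ℝ) :
    posCount H c = Multiset.card ((H.charpoly.roots.map Complex.re).filter fun x => c < x) := by
  rw [posCount_eq_card hH, hH.roots_charpoly_eq_eigenvalues, Multiset.map_map]
  have h1 : Multiset.map (Complex.re ∘ (RCLike.ofReal ∘ hH.eigenvalues)) Finset.univ.val
      = Multiset.map hH.eigenvalues Finset.univ.val := by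
    refine Multiset.map_congr rfl fun i _ => ?_
    simp
  rw [h1, Multiset.filter_map, Multiset.card_map]
  rfl

/-- Hermitian matrices (possibly on different index types) with the same characteristic
polynomial have the same counting function. -/
theorem posCount_of_charpoly_eq {H : Matrix n n ℂ} {K : Matrix m m ℂ}
    (hH : H.IsHermitian) (hK : K.IsHermitian) (h : H.charpoly = K.charpoly) (c : ℝ) :
    posCount H c = posCount K c := by
  rw [posCount_eq_roots hH, posCount_eq_roots hK, h]

theorem posCount_diagonal (f : n → ℝ) (c : ℝ) :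
    posCount (Matrix.diagonal fun i => (f i : ℂ)) c = (Finset.univ.filter fun i => c < f i).card := by
  have hD : (Matrix.diagonal fun i => (f i : ℂ)).IsHermitian := by
    refine Matrix.isHermitian_diagonal_iff.2 fun i => ?_
    simp [isSelfAdjoint_iff]
  rw [posCount_eq_roots hD, Matrix.charpoly_diagonal, Polynomial.roots_prod]
  · simp only [Polynomial.roots_X_sub_C, Multiset.bind_singleton, Multiset.map_map]
    have h1 : Multiset.map (Complex.re ∘ fun i => (f i : ℂ)) Finset.univ.val
        = Multiset.map f Finset.univ.val := by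
      refine Multiset.map_congr rfl fun i _ => ?_
      simp
    rw [h1, Multiset.filter_map, Multiset.card_map]
    rfl
  · simp [Finset.prod_ne_zero_iff, Polynomial.X_sub_C_ne_zero]

theorem posCount_unitary_conj {U : Matrix n n ℂ} (hU : U ∈ Matrix.unitaryGroup n ℂ)
    (A : Matrix n n ℂ) (c : ℝ) : posCount (U * A * star U) c = posCount A c := by
  have h1 : star U * U = 1 := (Matrix.mem_unitaryGroup_iff').1 hU
  by_cases hA : A.IsHermitian
  · refine posCount_of_charpoly_eq ((isHermitian_unitary_conj_iff hU A).2 hA) hA ?_ c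
    rw [Matrix.charpoly_mul_comm, ← Matrix.mul_assoc, h1, Matrix.one_mul]
  · rw [posCount_of_not_isHermitian hA,
      posCount_of_not_isHermitian (fun h => hA ((isHermitian_unitary_conj_iff hU A).1 h))]

/-- spectral bridge: the count of `U diag(f) U*` is the count of `f`. -/
theorem posCount_conj_diagonal {U : Matrix n n ℂ} (hU : U ∈ Matrix.unitaryGroup n ℂ)
    (f : n → ℝ) (c : ℝ) :
    posCount (U * Matrix.diagonal (fun i => (f i : ℂ)) * star U) c
      = (Finset.univ.filter fun i => c < f i).card := by
  rw [posCount_unitary_conj hU, posCount_diagonal]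

theorem posCount_reindex (e : n ≃ m) (A : Matrix n n ℂ) (c : ℝ) :
    posCount (Matrix.reindex e e A) c = posCount A c := by
  by_cases hA : A.IsHermitian
  · refine posCount_of_charpoly_eq ?_ hA (Matrix.charpoly_reindex e A) c
    exact hA.submatrix _
  · rw [posCount_of_not_isHermitian hA, posCount_of_not_isHermitian]
    intro h
    apply hA
    have : A = (Matrix.reindex e e A).submatrix e e := by
      ext i j; simp
    rw [this]
    exact h.submatrix _

theorem posCount_submatrix_equiv (e : m ≃ n) (A : Matrix n n ℂ) (c : ℝ) :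
    posCount (A.submatrix e e) c = posCount A c := by
  have := posCount_reindex e.symm A c
  simpa using this

/-- the count through Mathlib's sorted eigenvalues `eigenvalues₀` -/
theorem posCount_eq_card₀ {H : Matrix n n ℂ} (hH : H.IsHermitian) (c : ℝ) :
    posCount H c
      = (Finset.univ.filter fun k : Fin (Fintype.card n) => c < hH.eigenvalues₀ k).card := by
  rw [posCount_eq_card hH]
  let e : Fin (Fintype.card n) ≃ n := Fintype.equivOfCardEq (Fintype.card_fin _)
  refine Finset.card_bij (fun i _ => e.symm i) ?_ ?_ ?_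
  · intro i hi
    simpa [Matrix.IsHermitian.eigenvalues, e] using hi
  · intro i _ j _ hij
    exact e.symm.injective hij
  · intro k hk
    refine ⟨e k, ?_, by simp⟩
    simpa [Matrix.IsHermitian.eigenvalues, e] using hk

theorem posCount_le_card (H : Matrix n n ℂ) (c : ℝ) : posCount H c ≤ Fintype.card n := by
  by_cases hH : H.IsHermitian
  · rw [posCount_eq_card hH]
    exact Finset.card_le_univ _
  · rw [posCount_of_not_isHermitian hH]
    exact Nat.zero_le _

theorem posCount_antitone (H : Matrix n n ℂ) : Antitone (posCount H) := by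
  intro c c' hcc'
  by_cases hH : H.IsHermitian
  · rw [posCount_eq_card hH, posCount_eq_card hH]
    refine Finset.card_le_card fun i hi => ?_
    simp only [Finset.mem_filter, Finset.mem_univ, true_and] at hi ⊢
    exact lt_of_le_of_lt hcc' hi
  · rw [posCount_of_not_isHermitian hH, posCount_of_not_isHermitian hH]

/-- **Bridge** between the counting function and the sorted eigenvalues:
the `k`-th largest eigenvalue is above `c` iff more than `k` eigenvalues are above `c`. -/
theorem lt_eigenvalues₀_iff {H : Matrix n n ℂ} (hH : H.IsHermitian) (c : ℝ)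
    (k : Fin (Fintype.card n)) : c < hH.eigenvalues₀ k ↔ (k : ℕ) < posCount H c := by
  rw [posCount_eq_card₀ hH]
  have hanti := hH.eigenvalues₀_antitone
  constructor
  · intro hk
    have hsub : Finset.Iic k ⊆ Finset.univ.filter fun j => c < hH.eigenvalues₀ j := by
      intro j hj
      simp only [Finset.mem_Iic] at hj
      simp only [Finset.mem_filter, Finset.mem_univ, true_and]
      exact lt_of_lt_of_le hk (hanti hj)
    have := Finset.card_le_card hsub
    rw [Fin.card_Iic] at this
    omega
  · intro hk
    by_contra hck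
    have hsub : (Finset.univ.filter fun j => c < hH.eigenvalues₀ j) ⊆ Finset.Iio k := by
      intro j hj
      simp only [Finset.mem_filter, Finset.mem_univ, true_and] at hj
      simp only [Finset.mem_Iio]
      by_contra hjk
      exact hck (lt_of_lt_of_le hj (hanti (not_lt.1 hjk)))
    have := Finset.card_le_card hsub
    rw [Fin.card_Iio] at this
    omega

theorem eigenvalues₀_le_iff {H : Matrix n n ℂ} (hH : H.IsHermitian) (c : ℝ)
    (k : Fin (Fintype.card n)) : hH.eigenvalues₀ k ≤ c ↔ posCount H c ≤ (k : ℕ) := by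
  rw [← not_lt, lt_eigenvalues₀_iff hH, not_lt]

/-- sorted eigenvalues are determined by the counting function -/
theorem eigenvalues₀_eq_of_posCount_eq {H K : Matrix n n ℂ} (hH : H.IsHermitian)
    (hK : K.IsHermitian) (t : ℝ) (h : ∀ c, posCount K c = posCount H (c - t))
    (k : Fin (Fintype.card n)) : hK.eigenvalues₀ k = hH.eigenvalues₀ k + t := by
  apply le_antisymm
  · have h1 := (eigenvalues₀_le_iff hK (hH.eigenvalues₀ k + t) k).2
    apply h1
    rw [h, add_sub_cancel_right]
    exact (eigenvalues₀_le_iff hH _ k).1 le_rfl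
  · have h1 := (eigenvalues₀_le_iff hH (hK.eigenvalues₀ k - t) k).2
    have h2 := h1 (by rw [← h]; exact (eigenvalues₀_le_iff hK _ k).1 le_rfl)
    linarith

/-- shift: `posCount (H + t) c = posCount H (c - t)` -/
theorem posCount_add_smul_one {H : Matrix n n ℂ} (hH : H.IsHermitian) (t c : ℝ) :
    posCount (H + (t : ℂ) • (1 : Matrix n n ℂ)) c = posCount H (c - t) := by
  obtain ⟨U, hU, hHU⟩ := exists_unitary_diagonal hH
  have h2 : U * star U = 1 := (Matrix.mem_unitaryGroup_iff).1 hU
  have h3 : H + (t : ℂ) • (1 : Matrix n n ℂ)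
      = U * Matrix.diagonal (fun i => ((hH.eigenvalues i + t : ℝ) : ℂ)) * star U := by
    have h4 : (Matrix.diagonal fun i => ((hH.eigenvalues i + t : ℝ) : ℂ))
        = Matrix.diagonal (fun i => (hH.eigenvalues i : ℂ)) + (t : ℂ) • (1 : Matrix n n ℂ) := by
      ext i j
      by_cases hij : i = j
      · subst hij; simp
      · simp [hij]
    rw [h4, Matrix.mul_add, Matrix.add_mul, ← hHU, Matrix.mul_smul, Matrix.smul_mul,
      Matrix.mul_one, h2]
  rw [h3, posCount_conj_diagonal hU, posCount_eq_card hH]
  congr 1
  ext i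
  simp only [Finset.mem_filter, Finset.mem_univ, true_and]
  constructor <;> intro h <;> linarith

/-- shift: `posCount (H - t) c = posCount H (t + c)` -/
theorem posCount_sub_smul_one {H : Matrix n n ℂ} (hH : H.IsHermitian) (t c : ℝ) :
    posCount (H - (t : ℂ) • (1 : Matrix n n ℂ)) c = posCount H (t + c) := by
  have h := posCount_add_smul_one hH (-t) c
  have h1 : H + ((-t : ℝ) : ℂ) • (1 : Matrix n n ℂ) = H - (t : ℂ) • (1 : Matrix n n ℂ) := by
    push_cast
    rw [neg_smul, sub_eq_add_neg]
  rw [h1] at h
  rw [h]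
  congr 1
  ring

/-- scaling by `t > 0` -/
theorem posCount_smul {H : Matrix n n ℂ} (hH : H.IsHermitian) {t : ℝ} (ht : 0 < t) (c : ℝ) :
    posCount ((t : ℂ) • H) (t * c) = posCount H c := by
  obtain ⟨U, hU, hHU⟩ := exists_unitary_diagonal hH
  have h3 : (t : ℂ) • H
      = U * Matrix.diagonal (fun i => ((t * hH.eigenvalues i : ℝ) : ℂ)) * star U := by
    have h4 : (Matrix.diagonal fun i => ((t * hH.eigenvalues i : ℝ) : ℂ))
        = (t : ℂ) • Matrix.diagonal (fun i => (hH.eigenvalues i : ℂ)) := by
      ext i j
      by_cases hij : i = j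
      · subst hij; simp
      · simp [hij]
    rw [h4, Matrix.mul_smul, Matrix.smul_mul, ← hHU]
  rw [h3, posCount_conj_diagonal hU, posCount_eq_card hH]
  congr 1
  ext i
  simp only [Finset.mem_filter, Finset.mem_univ, true_and]
  exact mul_lt_mul_iff_right₀ ht

/-- sorted eigenvalues of a shift -/
theorem eigenvalues₀_add_smul_one {H : Matrix n n ℂ} (hH : H.IsHermitian) (t : ℝ)
    (hHt : (H + (t : ℂ) • (1 : Matrix n n ℂ)).IsHermitian) (k : Fin (Fintype.card n)) :
    hHt.eigenvalues₀ k = hH.eigenvalues₀ k + t :=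
  eigenvalues₀_eq_of_posCount_eq hH hHt t (fun c => posCount_add_smul_one hH t c) k

/-- the `1 × 1` case -/
theorem posCount_unit (x c : ℝ) :
    posCount (Matrix.of fun (_ _ : Unit) => (x : ℂ)) c = if c < x then 1 else 0 := by
  have h : (Matrix.of fun (_ _ : Unit) => (x : ℂ)) = Matrix.diagonal fun _ : Unit => (x : ℂ) := by
    ext i j
    simp
  rw [h, posCount_diagonal]
  by_cases hc : c < x <;> simp [hc]

/-- nonnegativity of the eigenvalues: nothing is counted above a bound of the spectrum -/
theorem posCount_eq_zero_of_forall_le {H : Matrix n n ℂ} (hH : H.IsHermitian) {c : ℝ}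
    (h : ∀ i, hH.eigenvalues i ≤ c) : posCount H c = 0 := by
  rw [posCount_eq_card hH, Finset.card_eq_zero, Finset.filter_eq_empty_iff]
  intro i _
  exact not_lt.2 (h i)

/-! ### layer cake -/

/-- `∫_0^∞ #{i : c < λ_i} dc = ∑ (λ_i)⁺`. -/
theorem lintegral_posCount {H : Matrix n n ℂ} (hH : H.IsHermitian) :
    ∫⁻ c in Set.Ioi (0 : ℝ), (posCount H c : ℝ≥0∞)
      = ENNReal.ofReal (∑ i, max (hH.eigenvalues i) 0) := by
  have h1 : ∀ c : ℝ, (posCount H c : ℝ≥0∞)
      = ∑ i, (Set.Iio (hH.eigenvalues i)).indicator (fun _ => (1 : ℝ≥0∞)) c := by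
    intro c
    rw [posCount_eq_card hH, Finset.card_filter]
    push_cast
    refine Finset.sum_congr rfl fun i _ => ?_
    by_cases hc : c < hH.eigenvalues i <;> simp [Set.indicator, hc]
  simp_rw [h1]
  rw [lintegral_finsetSum _ (fun i _ => (measurable_const.indicator measurableSet_Iio))]
  rw [ENNReal.ofReal_sum_of_nonneg (fun i _ => le_max_right _ _)]
  refine Finset.sum_congr rfl fun i _ => ?_
  rw [lintegral_indicator measurableSet_Iio, Measure.restrict_restrict measurableSet_Iio,
    setLIntegral_const, one_mul]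
  have h2 : Set.Iio (hH.eigenvalues i) ∩ Set.Ioi 0 = Set.Ioo 0 (hH.eigenvalues i) := by
    ext c
    simp only [Set.mem_inter_iff, Set.mem_Iio, Set.mem_Ioi, Set.mem_Ioo]
    tauto
  rw [h2, Real.volume_Ioo, sub_zero]
  rcases le_total (hH.eigenvalues i) 0 with h | h
  · rw [max_eq_right h, ENNReal.ofReal_of_nonpos h, ENNReal.ofReal_zero]
  · rw [max_eq_left h]

/-- scaled layer cake: `∫_0^∞ #{i : u s < λ_i} ds = ∑ (λ_i)⁺ / u` for `u > 0`. -/
theorem lintegral_posCount_mul {H : Matrix n n ℂ} (hH : H.IsHermitian) {u : ℝ} (hu : 0 < u) :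
    ∫⁻ s in Set.Ioi (0 : ℝ), (posCount H (u * s) : ℝ≥0∞)
      = ENNReal.ofReal ((∑ i, max (hH.eigenvalues i) 0) / u) := by
  have h1 : ∀ s : ℝ, (posCount H (u * s) : ℝ≥0∞)
      = ∑ i, (Set.Iio (hH.eigenvalues i / u)).indicator (fun _ => (1 : ℝ≥0∞)) s := by
    intro s
    rw [posCount_eq_card hH, Finset.card_filter]
    push_cast
    refine Finset.sum_congr rfl fun i _ => ?_
    have : u * s < hH.eigenvalues i ↔ s < hH.eigenvalues i / u := by
      rw [lt_div_iff₀ hu, mul_comm]
    by_cases hc : s < hH.eigenvalues i / u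
    · simp [Set.indicator, hc, this.2 hc]
    · have hc' : ¬ (u * s < hH.eigenvalues i) := fun h => hc (this.1 h)
      simp [Set.indicator, hc, hc']
  simp_rw [h1]
  rw [lintegral_finsetSum _ (fun i _ => (measurable_const.indicator measurableSet_Iio))]
  rw [Finset.sum_div, ENNReal.ofReal_sum_of_nonneg
    (fun i _ => div_nonneg (le_max_right _ _) hu.le)]
  refine Finset.sum_congr rfl fun i _ => ?_
  rw [lintegral_indicator measurableSet_Iio, Measure.restrict_restrict measurableSet_Iio,
    setLIntegral_const, one_mul]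
  have h2 : Set.Iio (hH.eigenvalues i / u) ∩ Set.Ioi 0 = Set.Ioo 0 (hH.eigenvalues i / u) := by
    ext c
    simp only [Set.mem_inter_iff, Set.mem_Iio, Set.mem_Ioi, Set.mem_Ioo]
    tauto
  rw [h2, Real.volume_Ioo, sub_zero]
  rcases le_total (hH.eigenvalues i) 0 with h | h
  · rw [max_eq_right h, zero_div, ENNReal.ofReal_of_nonpos (div_nonpos_of_nonpos_of_nonneg h hu.le),
      ENNReal.ofReal_zero]
  · rw [max_eq_left h]

/-- `(tr H)⁺ ≤ ∑ (λ_i)⁺`. -/
theorem max_trace_le_sum_max {H : Matrix n n ℂ} (hH : H.IsHermitian) :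
    max H.trace.re 0 ≤ ∑ i, max (hH.eigenvalues i) 0 := by
  rw [trace_re_eq_sum_eigenvalues hH]
  apply max_le
  · exact Finset.sum_le_sum fun i _ => le_max_left _ _
  · exact Finset.sum_nonneg fun i _ => le_max_right _ _

/-- for PSD `H`: `∑ (λ_i)⁺ = tr H`. -/
theorem sum_max_eigenvalues_of_posSemidef {H : Matrix n n ℂ} (hH : H.PosSemidef) :
    ∑ i, max (hH.isHermitian.eigenvalues i) 0 = H.trace.re := by
  rw [trace_re_eq_sum_eigenvalues hH.isHermitian]
  exact Finset.sum_congr rfl fun i _ => max_eq_left (hH.eigenvalues_nonneg i)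

end Crest.Agent.GAD.Spec
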