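import Mathlib
import Crest.Agent.GAD.Spec.PosCount

/-!
# Row 341, WP-E, module E1: the Courant–Fischer half for `posCount`

* `quadForm_eq_sum` / `normSq_eq_sum` : the quadratic form of a Hermitian matrix in its eigenbasis;
* `finrank_le_posCount` : a subspace on which `c |x|² < Re ⟨x, H x⟩` has dimension `≤ posCount H c`;
* `exists_submodule_posCount` : such a subspace of dimension exactly `posCount H c` exists.
-/

set_option autoImplicit false
set_option linter.unusedSectionVars false

namespace Crest.Agent.GAD.Spec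

open Matrix
open scoped ComplexOrder

variable {n : Type*} [Fintype n] [DecidableEq n]

theorem star_dotProduct_mulVec (U : Matrix n n ℂ) (x w : n → ℂ) :
    star x ⬝ᵥ U *ᵥ w = star (star U *ᵥ x) ⬝ᵥ w := by
  rw [Matrix.dotProduct_mulVec, Matrix.star_mulVec, Matrix.star_eq_conjTranspose,
    Matrix.conjTranspose_conjTranspose]

theorem re_star_mul_ofReal_mul (r : ℝ) (z : ℂ) :
    (star z * ((r : ℂ) * z)).re = r * Complex.normSq z := by
  have h : star z * ((r : ℂ) * z) = ((r * Complex.normSq z : ℝ) : ℂ) := by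
    rw [Complex.ofReal_mul, Complex.normSq_eq_conj_mul_self, Complex.star_def]
    ring
  rw [h, Complex.ofReal_re]

/-- `Re ⟨x, (U diag(f) U*) x⟩ = ∑ f_i |(U* x)_i|²`. -/
theorem quadForm_conj_diagonal {U : Matrix n n ℂ} (f : n → ℝ) (x : n → ℂ) :
    (star x ⬝ᵥ (U * Matrix.diagonal (fun i => (f i : ℂ)) * star U) *ᵥ x).re
      = ∑ i, f i * Complex.normSq ((star U *ᵥ x) i) := by
  have h1 : (U * Matrix.diagonal (fun i => (f i : ℂ)) * star U) *ᵥ x
      = U *ᵥ (Matrix.diagonal (fun i => (f i : ℂ)) *ᵥ (star U *ᵥ x)) := by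
    simp [Matrix.mulVec_mulVec, Matrix.mul_assoc]
  rw [h1, star_dotProduct_mulVec, dotProduct, Complex.re_sum]
  refine Finset.sum_congr rfl fun i _ => ?_
  rw [Matrix.mulVec_diagonal, Pi.star_apply, re_star_mul_ofReal_mul]

/-- `|x|² = ∑ |(U* x)_i|²` for unitary `U`. -/
theorem normSq_eq_sum_unitary {U : Matrix n n ℂ} (hU : U ∈ Matrix.unitaryGroup n ℂ) (x : n → ℂ) :
    (star x ⬝ᵥ x).re = ∑ i, Complex.normSq ((star U *ᵥ x) i) := by
  have h2 : U * star U = 1 := (Matrix.mem_unitaryGroup_iff).1 hU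
  have h1 : x = U *ᵥ (star U *ᵥ x) := by
    rw [Matrix.mulVec_mulVec, h2, Matrix.one_mulVec]
  conv_lhs => rw [h1, star_dotProduct_mulVec, ← h1]
  rw [dotProduct, Complex.re_sum]
  refine Finset.sum_congr rfl fun i _ => ?_
  have := re_star_mul_ofReal_mul 1 ((star U *ᵥ x) i)
  simpa using this

/-- The quadratic form of a Hermitian matrix in its eigenbasis. -/
theorem exists_unitary_quadForm {H : Matrix n n ℂ} (hH : H.IsHermitian) :
    ∃ U ∈ Matrix.unitaryGroup n ℂ,
      (∀ x : n → ℂ, (star x ⬝ᵥ H *ᵥ x).re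
        = ∑ i, hH.eigenvalues i * Complex.normSq ((star U *ᵥ x) i)) ∧
      (∀ x : n → ℂ, (star x ⬝ᵥ x).re = ∑ i, Complex.normSq ((star U *ᵥ x) i)) := by
  obtain ⟨U, hU, hHU⟩ := exists_unitary_diagonal hH
  refine ⟨U, hU, fun x => ?_, fun x => normSq_eq_sum_unitary hU x⟩
  have h := quadForm_conj_diagonal (U := U) hH.eigenvalues x
  rw [← hHU] at h
  exact h

/-- **E1 (Courant–Fischer half).** A subspace on which the quadratic form of `H` is strictly above
`c |x|²` has dimension at most `posCount H c`. -/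
theorem finrank_le_posCount {H : Matrix n n ℂ} (hH : H.IsHermitian) (c : ℝ)
    (V : Submodule ℂ (n → ℂ))
    (hV : ∀ x ∈ V, x ≠ 0 → c * (star x ⬝ᵥ x).re < (star x ⬝ᵥ H *ᵥ x).re) :
    Module.finrank ℂ V ≤ posCount H c := by
  obtain ⟨U, hU, hq, hn⟩ := exists_unitary_quadForm hH
  let P : (n → ℂ) →ₗ[ℂ] ({i // c < hH.eigenvalues i} → ℂ) :=
    (LinearMap.funLeft ℂ ℂ (Subtype.val : {i // c < hH.eigenvalues i} → n)) ∘ₗ
      (Matrix.mulVecLin (star U))
  have hinj : Function.Injective (P ∘ₗ V.subtype) := by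
    rw [← LinearMap.ker_eq_bot, LinearMap.ker_eq_bot']
    intro x hx
    by_contra hx0
    have hne : (x : n → ℂ) ≠ 0 := fun h => hx0 (Subtype.ext h)
    have h1 := hV x x.2 hne
    rw [hq, hn] at h1
    have hy : ∀ i, c < hH.eigenvalues i → (star U *ᵥ (x : n → ℂ)) i = 0 := by
      intro i hi
      have := congrFun hx ⟨i, hi⟩
      simpa [P, LinearMap.funLeft] using this
    have h2 : ∑ i, hH.eigenvalues i * Complex.normSq ((star U *ᵥ (x : n → ℂ)) i)
        ≤ c * ∑ i, Complex.normSq ((star U *ᵥ (x : n → ℂ)) i) := by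
      rw [Finset.mul_sum]
      refine Finset.sum_le_sum fun i _ => ?_
      by_cases hi : c < hH.eigenvalues i
      · rw [hy i hi]; simp
      · exact mul_le_mul_of_nonneg_right (not_lt.1 hi) (Complex.normSq_nonneg _)
    linarith
  have h3 := LinearMap.finrank_le_finrank_of_injective hinj
  rw [Module.finrank_fintype_fun_eq_card, Fintype.card_subtype] at h3
  rw [posCount_eq_card hH]
  exact h3

/-- **E1 (witness).** There is a subspace of dimension exactly `posCount H c` on which the quadratic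
form of `H` is strictly above `c |x|²` (the span of the eigenvectors with eigenvalue `> c`). -/
theorem exists_submodule_posCount {H : Matrix n n ℂ} (hH : H.IsHermitian) (c : ℝ) :
    ∃ V : Submodule ℂ (n → ℂ), Module.finrank ℂ V = posCount H c ∧
      ∀ x ∈ V, x ≠ 0 → c * (star x ⬝ᵥ x).re < (star x ⬝ᵥ H *ᵥ x).re := by
  obtain ⟨U, hU, hq, hn⟩ := exists_unitary_quadForm hH
  have hUU : star U * U = 1 := (Matrix.mem_unitaryGroup_iff').1 hU
  -- extension by zero from the index set `{i // c < λ_i}`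
  let E : ({i // c < hH.eigenvalues i} → ℂ) →ₗ[ℂ] (n → ℂ) :=
    { toFun := fun z i => if h : c < hH.eigenvalues i then z ⟨i, h⟩ else 0
      map_add' := by
        intro z w; ext i
        by_cases h : c < hH.eigenvalues i <;> simp [h]
      map_smul' := by
        intro a z; ext i
        by_cases h : c < hH.eigenvalues i <;> simp [h] }
  let Q : ({i // c < hH.eigenvalues i} → ℂ) →ₗ[ℂ] (n → ℂ) := (Matrix.mulVecLin U) ∘ₗ E
  have hQ : ∀ z, star U *ᵥ Q z = E z := by
    intro z
    simp only [Q, LinearMap.comp_apply, Matrix.mulVecLin_apply]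
    rw [Matrix.mulVec_mulVec, hUU, Matrix.one_mulVec]
  have hEinj : Function.Injective E := by
    intro z w hzw
    ext ⟨i, hi⟩
    have := congrFun hzw i
    simpa [E, hi] using this
  have hQinj : Function.Injective Q := by
    intro z w hzw
    apply hEinj
    rw [← hQ z, ← hQ w, hzw]
  refine ⟨LinearMap.range Q, ?_, ?_⟩
  · rw [LinearMap.finrank_range_of_inj hQinj, Module.finrank_fintype_fun_eq_card,
      Fintype.card_subtype, posCount_eq_card hH]
  · rintro x ⟨z, rfl⟩ hx0
    rw [hq, hn, hQ, Finset.mul_sum]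
    have hz0 : z ≠ 0 := by
      rintro rfl
      exact hx0 (map_zero Q)
    obtain ⟨⟨i0, hi0⟩, hzi0⟩ : ∃ j, z j ≠ 0 := by
      by_contra hcon
      push Not at hcon
      exact hz0 (funext hcon)
    refine Finset.sum_lt_sum (fun i _ => ?_) ⟨i0, Finset.mem_univ _, ?_⟩
    · by_cases hi : c < hH.eigenvalues i
      · exact mul_le_mul_of_nonneg_right hi.le (Complex.normSq_nonneg _)
      · have : E z i = 0 := by simp [E, hi]
        rw [this]; simp
    · have : E z i0 = z ⟨i0, hi0⟩ := by simp [E, hi0]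
      rw [this]
      exact mul_lt_mul_of_pos_right hi0 (Complex.normSq_pos.2 hzi0)

end Crest.Agent.GAD.Spec
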