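import Mathlib

/-!
# Counting eigenvalues of Hermitian matrices (row 341, WP-E rows E1, E2; helper6)

Everything lives in the namespace `Crest.Agent.GAD.Count6`.

* `qf A x = re (x* A x)`, `nsq x = re (x* x)`;
* `posCount hA c` = number of eigenvalues of the Hermitian matrix `A` that are `> c`
  (`sEig_count`: the same number counted with Mathlib's sorted `eigenvalues₀`);
* `sEig_minmax'` (E1): a space on which `qf A > c · nsq` has dimension `≤ posCount hA c`;
* `sEig_count_le` : comparison principle for counts through a linear map;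
* `sEig_count_mono` (E2), `sEig_mono_qf`, `sEig_mono` : Loewner/Weyl monotonicity of the
  counts and of Mathlib's sorted eigenvalues `eigenvalues₀`;
* `sEig_add_smul_one` : `eigenvalues₀ (A + c • 1) k = eigenvalues₀ A k + c`;
* `antitone_le_of_count` : antitone sequences are compared by their counting functions.

Mathlib only.
-/

set_option autoImplicit false

open scoped ComplexOrder
open Matrix

namespace Crest.Agent.GAD.Count6

section Basic

variable {n : Type*} [Fintype n]

/-- The real quadratic form `re (x* A x)`. -/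
noncomputable def qf (A : Matrix n n ℂ) (x : n → ℂ) : ℝ := (star x ⬝ᵥ A *ᵥ x).re

/-- The squared Euclidean norm `re (x* x) = ∑ |x i|²`. -/
noncomputable def nsq (x : n → ℂ) : ℝ := (star x ⬝ᵥ x).re

theorem nsq_eq_sum (x : n → ℂ) : nsq x = ∑ i, Complex.normSq (x i) := by
  unfold nsq
  simp only [dotProduct, Pi.star_apply, Complex.re_sum]
  refine Finset.sum_congr rfl fun i _ => ?_
  rw [Complex.star_def, Complex.normSq_apply]
  simp [Complex.mul_re]

theorem nsq_nonneg (x : n → ℂ) : 0 ≤ nsq x := by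
  rw [nsq_eq_sum]
  exact Finset.sum_nonneg fun i _ => Complex.normSq_nonneg _

theorem nsq_eq_zero_iff (x : n → ℂ) : nsq x = 0 ↔ x = 0 := by
  rw [nsq_eq_sum]
  constructor
  · intro h
    have h' := (Finset.sum_eq_zero_iff_of_nonneg (fun i _ => Complex.normSq_nonneg (x i))).1 h
    funext i
    exact Complex.normSq_eq_zero.1 (h' i (Finset.mem_univ i))
  · rintro rfl
    simp

theorem nsq_zero : nsq (0 : n → ℂ) = 0 := (nsq_eq_zero_iff 0).2 rfl

theorem qf_zero (A : Matrix n n ℂ) : qf A 0 = 0 := by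
  simp [qf]

theorem qf_add (A B : Matrix n n ℂ) (x : n → ℂ) : qf (A + B) x = qf A x + qf B x := by
  simp [qf, add_mulVec, dotProduct_add]

theorem qf_sub (A B : Matrix n n ℂ) (x : n → ℂ) : qf (A - B) x = qf A x - qf B x := by
  simp [qf, sub_mulVec, dotProduct_sub]

theorem qf_real_smul (r : ℝ) (A : Matrix n n ℂ) (x : n → ℂ) :
    qf ((r : ℂ) • A) x = r * qf A x := by
  simp [qf, smul_mulVec, dotProduct_smul]

theorem qf_one [DecidableEq n] (x : n → ℂ) : qf (1 : Matrix n n ℂ) x = nsq x := by
  simp [qf, nsq]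

/-- `qf (Bᴴ M B) z = qf M (B z)`. -/
theorem qf_conj {m : Type*} [Fintype m] (B : Matrix m n ℂ) (M : Matrix m m ℂ) (z : n → ℂ) :
    qf (Bᴴ * M * B) z = qf M (B *ᵥ z) := by
  unfold qf
  rw [star_mulVec, ← mulVec_mulVec, ← mulVec_mulVec, dotProduct_mulVec (star z) Bᴴ]

/-- `qf (Bᴴ B) z = nsq (B z)`. -/
theorem qf_conjTranspose_mul_self {m : Type*} [Fintype m] (B : Matrix m n ℂ) (z : n → ℂ) :
    qf (Bᴴ * B) z = nsq (B *ᵥ z) := by
  unfold qf nsq
  rw [star_mulVec, ← mulVec_mulVec, dotProduct_mulVec (star z) Bᴴ]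

/-- `qf (U diag(δ) Uᴴ) x = ∑ δ i |(Uᴴ x) i|²`. -/
theorem qf_conj_diag [DecidableEq n] (U : Matrix n n ℂ) (δ : n → ℝ) (x : n → ℂ) :
    qf (U * diagonal (fun i => (δ i : ℂ)) * Uᴴ) x
      = ∑ i, δ i * Complex.normSq ((Uᴴ *ᵥ x) i) := by
  have h := qf_conj Uᴴ (diagonal (fun i => (δ i : ℂ))) x
  rw [conjTranspose_conjTranspose] at h
  rw [h]
  unfold qf
  simp only [dotProduct, Pi.star_apply, mulVec_diagonal, Complex.re_sum]
  refine Finset.sum_congr rfl fun i _ => ?_
  rw [Complex.star_def, Complex.normSq_apply]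
  simp [Complex.mul_re, Complex.mul_im]
  ring

/-- For a unitary `U`: `nsq x = ∑ |(Uᴴ x) i|²`. -/
theorem nsq_unitary [DecidableEq n] (U : Matrix n n ℂ) (hU : U * Uᴴ = 1) (x : n → ℂ) :
    nsq x = ∑ i, Complex.normSq ((Uᴴ *ᵥ x) i) := by
  have h := qf_conj_diag U (fun _ => (1 : ℝ)) x
  have h1 : diagonal (fun _ : n => ((1 : ℝ) : ℂ)) = (1 : Matrix n n ℂ) := by
    ext i j
    simp [diagonal, one_apply]
  rw [h1, Matrix.mul_one, hU, qf_one] at h
  rw [h]
  simp

end Basic

section Count

variable {n : Type*} [Fintype n] [DecidableEq n]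

/-- Spectral theorem in the plain form `A = U diag(λ) Uᴴ`. -/
theorem sEig_spectral {A : Matrix n n ℂ} (hA : A.IsHermitian) :
    A = (hA.eigenvectorUnitary : Matrix n n ℂ) * diagonal (fun i => (hA.eigenvalues i : ℂ))
      * (hA.eigenvectorUnitary : Matrix n n ℂ)ᴴ := by
  conv_lhs => rw [hA.spectral_theorem]
  rw [Unitary.conjStarAlgAut_apply]
  rfl

theorem sEig_unitary_mul {A : Matrix n n ℂ} (hA : A.IsHermitian) :
    (hA.eigenvectorUnitary : Matrix n n ℂ) * (hA.eigenvectorUnitary : Matrix n n ℂ)ᴴ = 1 := by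
  have h := hA.eigenvectorUnitary.2
  rw [Matrix.mem_unitaryGroup_iff] at h
  exact h

theorem sEig_unitary_mul' {A : Matrix n n ℂ} (hA : A.IsHermitian) :
    (hA.eigenvectorUnitary : Matrix n n ℂ)ᴴ * (hA.eigenvectorUnitary : Matrix n n ℂ) = 1 := by
  have h := hA.eigenvectorUnitary.2
  rw [Matrix.mem_unitaryGroup_iff'] at h
  exact h

/-- `qf A x = ∑ λ_i |(Uᴴ x) i|²` in the eigenbasis of `A`. -/
theorem sEig_qf {A : Matrix n n ℂ} (hA : A.IsHermitian) (x : n → ℂ) :
    qf A x = ∑ i, hA.eigenvalues i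
      * Complex.normSq (((hA.eigenvectorUnitary : Matrix n n ℂ)ᴴ *ᵥ x) i) := by
  conv_lhs => rw [sEig_spectral hA]
  exact qf_conj_diag _ _ x

theorem sEig_nsq {A : Matrix n n ℂ} (hA : A.IsHermitian) (x : n → ℂ) :
    nsq x = ∑ i, Complex.normSq (((hA.eigenvectorUnitary : Matrix n n ℂ)ᴴ *ᵥ x) i) :=
  nsq_unitary _ (sEig_unitary_mul hA) x

/-- The number of eigenvalues of a Hermitian matrix that are `> c`. -/
noncomputable def posCount {A : Matrix n n ℂ} (hA : A.IsHermitian) (c : ℝ) : ℕ :=
  (Finset.univ.filter fun i : n => c < hA.eigenvalues i).card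

/-- Same count with Mathlib's sorted eigenvalues `eigenvalues₀`. -/
theorem sEig_count {A : Matrix n n ℂ} (hA : A.IsHermitian) (c : ℝ) :
    (Finset.univ.filter fun k : Fin (Fintype.card n) => c < hA.eigenvalues₀ k).card
      = posCount hA c := by
  unfold posCount
  refine Finset.card_equiv (Fintype.equivOfCardEq (Fintype.card_fin _)) ?_
  intro k
  rw [Finset.mem_filter, Finset.mem_filter]
  unfold Matrix.IsHermitian.eigenvalues
  simp

/-- **Min-max count.** If `φ : E → ℂⁿ` is linear and `c · nsq (φ e) < qf A (φ e)` for all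
`e ≠ 0`, then `dim E ≤ #{eigenvalues of A > c}`. -/
theorem sEig_minmax' {A : Matrix n n ℂ} (hA : A.IsHermitian) (c : ℝ)
    {E : Type*} [AddCommGroup E] [Module ℂ E] (φ : E →ₗ[ℂ] (n → ℂ))
    (h : ∀ e : E, e ≠ 0 → c * nsq (φ e) < qf A (φ e)) :
    Module.finrank ℂ E ≤ posCount hA c := by
  classical
  set U : Matrix n n ℂ := (hA.eigenvectorUnitary : Matrix n n ℂ) with hU
  let f : E →ₗ[ℂ] ({i : n // c < hA.eigenvalues i} → ℂ) :=
    (LinearMap.funLeft ℂ ℂ (Subtype.val : {i : n // c < hA.eigenvalues i} → n)) ∘ₗ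
      (Matrix.mulVecLin Uᴴ) ∘ₗ φ
  have hf : Function.Injective f := by
    rw [← LinearMap.ker_eq_bot, LinearMap.ker_eq_bot']
    intro e he
    by_contra hne
    have hlt := h e hne
    have hy : ∀ i : n, c < hA.eigenvalues i → (Uᴴ *ᵥ φ e) i = 0 := by
      intro i hi
      have := congrFun he ⟨i, hi⟩
      simpa [f, LinearMap.funLeft] using this
    rw [sEig_qf hA, sEig_nsq hA, Finset.mul_sum] at hlt
    have hle : ∑ i, hA.eigenvalues i * Complex.normSq ((Uᴴ *ᵥ φ e) i)
        ≤ ∑ i, c * Complex.normSq ((Uᴴ *ᵥ φ e) i) := by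
      refine Finset.sum_le_sum fun i _ => ?_
      by_cases hi : c < hA.eigenvalues i
      · rw [hy i hi]; simp
      · exact mul_le_mul_of_nonneg_right (not_lt.1 hi) (Complex.normSq_nonneg _)
    exact absurd hlt (not_lt.2 hle)
  have h1 := LinearMap.finrank_le_finrank_of_injective hf
  rw [Module.finrank_fintype_fun_eq_card, Fintype.card_subtype] at h1
  exact h1

/-- Extension by zero of coordinates indexed by the eigenvalues `> c`, rotated into the
eigenbasis: the "positive part" embedding. -/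
noncomputable def sEigEmb {A : Matrix n n ℂ} (hA : A.IsHermitian) (c : ℝ) :
    ({i : n // c < hA.eigenvalues i} → ℂ) →ₗ[ℂ] (n → ℂ) :=
  (Matrix.mulVecLin (hA.eigenvectorUnitary : Matrix n n ℂ)) ∘ₗ
    { toFun := fun z j => if hj : c < hA.eigenvalues j then z ⟨j, hj⟩ else 0
      map_add' := by
        intro z z'
        funext j
        by_cases hj : c < hA.eigenvalues j <;> simp [hj]
      map_smul' := by
        intro r z
        funext j
        by_cases hj : c < hA.eigenvalues j <;> simp [hj] }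

theorem sEigEmb_coord {A : Matrix n n ℂ} (hA : A.IsHermitian) (c : ℝ)
    (z : {i : n // c < hA.eigenvalues i} → ℂ) (j : n) :
    ((hA.eigenvectorUnitary : Matrix n n ℂ)ᴴ *ᵥ sEigEmb hA c z) j
      = if hj : c < hA.eigenvalues j then z ⟨j, hj⟩ else 0 := by
  unfold sEigEmb
  simp only [LinearMap.coe_comp, Function.comp_apply, Matrix.mulVecLin_apply, LinearMap.coe_mk,
    AddHom.coe_mk]
  rw [mulVec_mulVec, sEig_unitary_mul' hA, one_mulVec]

/-- On the positive-part space, `qf A > c · nsq`. -/
theorem sEigEmb_qf {A : Matrix n n ℂ} (hA : A.IsHermitian) (c : ℝ)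
    (z : {i : n // c < hA.eigenvalues i} → ℂ) (hz : z ≠ 0) :
    c * nsq (sEigEmb hA c z) < qf A (sEigEmb hA c z) := by
  classical
  rw [sEig_qf hA, sEig_nsq hA, Finset.mul_sum]
  obtain ⟨i0, hi0⟩ : ∃ i, z i ≠ 0 := by
    by_contra hcon
    push Not at hcon
    exact hz (funext hcon)
  refine Finset.sum_lt_sum (fun j _ => ?_) ⟨i0.1, Finset.mem_univ _, ?_⟩
  · rw [sEigEmb_coord]
    by_cases hj : c < hA.eigenvalues j
    · simp only [hj, dif_pos]
      exact mul_le_mul_of_nonneg_right hj.le (Complex.normSq_nonneg _)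
    · simp [hj]
  · rw [sEigEmb_coord]
    simp only [i0.2, dif_pos]
    exact mul_lt_mul_of_pos_right i0.2 (Complex.normSq_pos.2 hi0)

/-- **Comparison principle for eigenvalue counts.** If a linear map `L` sends every vector
with `c · nsq x < qf A x` to a vector with `c' · nsq (L x) < qf B (L x)`, then
`#{eig A > c} ≤ #{eig B > c'}`. -/
theorem sEig_count_le {m : Type*} [Fintype m] [DecidableEq m]
    {A : Matrix n n ℂ} (hA : A.IsHermitian) {B : Matrix m m ℂ} (hB : B.IsHermitian)
    (c c' : ℝ) (L : (n → ℂ) →ₗ[ℂ] (m → ℂ))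
    (h : ∀ x : n → ℂ, c * nsq x < qf A x → c' * nsq (L x) < qf B (L x)) :
    posCount hA c ≤ posCount hB c' := by
  classical
  have h1 := sEig_minmax' hB c' (L ∘ₗ sEigEmb hA c) (fun z hz => h _ (sEigEmb_qf hA c z hz))
  rw [Module.finrank_fintype_fun_eq_card, Fintype.card_subtype] at h1
  exact h1

/-- Loewner monotonicity of the counting function (quadratic-form version). -/
theorem sEig_count_mono {A B : Matrix n n ℂ} (hA : A.IsHermitian) (hB : B.IsHermitian)
    (h : ∀ x : n → ℂ, qf A x ≤ qf B x) (c : ℝ) : posCount hA c ≤ posCount hB c :=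
  sEig_count_le hA hB c c LinearMap.id (fun x hx => lt_of_lt_of_le hx (h x))

end Count

section Sorted

/-- For antitone sequences, domination of the counting functions gives termwise domination. -/
theorem antitone_le_of_count {N : ℕ} {α β : Fin N → ℝ} (hα : Antitone α) (hβ : Antitone β)
    (h : ∀ c : ℝ, (Finset.univ.filter fun j => c < α j).card
      ≤ (Finset.univ.filter fun j => c < β j).card) (k : Fin N) : α k ≤ β k := by
  by_contra hcon
  push Not at hcon
  have h1 : (Finset.univ.filter fun j => β k < β j) ⊆ Finset.Iio k := by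
    intro j hj
    rw [Finset.mem_filter] at hj
    rw [Finset.mem_Iio]
    by_contra hjk
    exact absurd hj.2 (not_lt.2 (hβ (not_lt.1 hjk)))
  have h2 : Finset.Iic k ⊆ (Finset.univ.filter fun j => β k < α j) := by
    intro j hj
    rw [Finset.mem_Iic] at hj
    rw [Finset.mem_filter]
    exact ⟨Finset.mem_univ _, lt_of_lt_of_le hcon (hα hj)⟩
  have h3 := Finset.card_le_card h1
  have h4 := Finset.card_le_card h2
  rw [Fin.card_Iio] at h3
  rw [Fin.card_Iic] at h4
  have := h (β k)
  omega

variable {n : Type*} [Fintype n] [DecidableEq n]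

/-- **Weyl monotonicity** for Mathlib's sorted eigenvalues (quadratic-form version). -/
theorem sEig_mono_qf {A B : Matrix n n ℂ} (hA : A.IsHermitian) (hB : B.IsHermitian)
    (h : ∀ x : n → ℂ, qf A x ≤ qf B x) (k : Fin (Fintype.card n)) :
    hA.eigenvalues₀ k ≤ hB.eigenvalues₀ k := by
  refine antitone_le_of_count hA.eigenvalues₀_antitone hB.eigenvalues₀_antitone (fun c => ?_) k
  rw [sEig_count hA c, sEig_count hB c]
  exact sEig_count_mono hA hB h c

/-- **Weyl monotonicity** for Mathlib's sorted eigenvalues (Loewner version). -/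
theorem sEig_mono {A B : Matrix n n ℂ} (hA : A.IsHermitian) (hB : B.IsHermitian)
    (h : (B - A).PosSemidef) (k : Fin (Fintype.card n)) :
    hA.eigenvalues₀ k ≤ hB.eigenvalues₀ k := by
  refine sEig_mono_qf hA hB (fun x => ?_) k
  have h1 := h.re_dotProduct_nonneg x
  have h2 := qf_sub B A x
  unfold qf at h2 ⊢
  simp only [RCLike.re_to_complex] at h1
  linarith

/-- Shift: the sorted eigenvalues of `A + c • 1` are those of `A` plus `c`. -/
theorem sEig_add_smul_one {A : Matrix n n ℂ} (hA : A.IsHermitian) (c : ℝ)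
    (hAc : (A + (c : ℂ) • (1 : Matrix n n ℂ)).IsHermitian) (k : Fin (Fintype.card n)) :
    hAc.eigenvalues₀ k = hA.eigenvalues₀ k + c := by
  have hq : ∀ x : n → ℂ, qf (A + (c : ℂ) • (1 : Matrix n n ℂ)) x = qf A x + c * nsq x := by
    intro x
    rw [qf_add, qf_real_smul, qf_one]
  have hanti : Antitone (fun j => hA.eigenvalues₀ j + c) :=
    fun i j hij => add_le_add_left (hA.eigenvalues₀_antitone hij) c
  have hcount : ∀ t : ℝ, (Finset.univ.filter fun j => t < hA.eigenvalues₀ j + c).card
      = posCount hA (t - c) := by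
    intro t
    rw [← sEig_count hA (t - c)]
    congr 1
    ext j
    simp only [Finset.mem_filter, Finset.mem_univ, true_and]
    constructor <;> intro hj <;> linarith
  apply le_antisymm
  · refine antitone_le_of_count hAc.eigenvalues₀_antitone hanti (fun t => ?_) k
    rw [sEig_count hAc t, hcount t]
    refine sEig_count_le hAc hA t (t - c) LinearMap.id (fun x hx => ?_)
    rw [hq] at hx
    simp only [LinearMap.id_coe, id_eq]
    linarith
  · refine antitone_le_of_count hanti hAc.eigenvalues₀_antitone (fun t => ?_) k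
    rw [sEig_count hAc t, hcount t]
    refine sEig_count_le hA hAc (t - c) t LinearMap.id (fun x hx => ?_)
    rw [hq]
    simp only [LinearMap.id_coe, id_eq]
    linarith

end Sorted

end Crest.Agent.GAD.Count6
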