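import Mathlib

/-!
# Row 341 (GADC), WP-E: E4 (top-m / knapsack), E5 (Ky Fan), E6 (Fiedler, log form)

For Hermitian `A`, `B` with Mathlib's sorted eigenvalues `eigenvalues₀` (antitone):

* `knapsack_le` (E4): `∑ a_i q_i ≤ ∑_{i<k} a_i` for antitone `a`, `q_i ∈ [0,1]`, `∑ q_i = k`.
* `kyFan_partial_sums`, `kyFan_total`: partial sums of the eigenvalues of `A + B` are bounded by
  those of `A` plus those of `B`, with equality for the full sum.
* `kyFan_hockey` (E5): `∑_j (γ_j - τ)₊ ≤ ∑_k (α_k + β_k - τ)₊`.
* `sum_log_le_of_partial_sums`: majorisation ⇒ `∑ log y ≤ ∑ log g` (Abel summation).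
* `fiedler_log` (E6): `∑_k log (1 + α_k + β_k) ≤ log det (1 + A + B)` for PSD `A`, `B`.
-/

set_option autoImplicit false
set_option linter.unusedSectionVars false

open Matrix Finset
open scoped ComplexOrder

namespace Crest.Agent.GAD.KyFan

/-- Fractional knapsack: a weighted sum of an antitone sequence with weights in `[0,1]` of total
mass `k` is at most the sum of the first `k` terms. -/
theorem knapsack_le {N : ℕ} (a q : Fin N → ℝ) (ha : Antitone a) (hq0 : ∀ i, 0 ≤ q i)
    (hq1 : ∀ i, q i ≤ 1) (k : ℕ) (hk : k ≤ N) (hsum : ∑ i, q i = k) :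
    ∑ i, a i * q i ≤ ∑ i : Fin N, if i.val < k then a i else 0 := by
  rcases Nat.eq_zero_or_pos k with rfl | hkpos
  · have hq : ∀ i, q i = 0 := by
      intro i
      exact (Finset.sum_eq_zero_iff_of_nonneg (fun i _ => hq0 i)).mp (by simpa using hsum) i
        (Finset.mem_univ i)
    simp [hq]
  · set c : ℝ := a ⟨k - 1, by omega⟩ with hc
    have hcount : (∑ i : Fin N, if i.val < k then (1 : ℝ) else 0) = k := by
      rw [Finset.sum_ite, Finset.sum_const_zero, add_zero, Finset.sum_const, nsmul_eq_mul,
        mul_one, Fin.card_filter_val_lt, min_eq_right hk]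
    have hterm : ∀ i : Fin N, a i * q i - (if i.val < k then a i else 0) ≤
        c * (q i - if i.val < k then (1 : ℝ) else 0) := by
      intro i
      by_cases hi : i.val < k
      · have hci : c ≤ a i := ha (by rw [Fin.le_def]; simp; omega)
        simp only [hi, if_true]
        nlinarith [hq1 i, hq0 i]
      · have hci : a i ≤ c := ha (by rw [Fin.le_def]; simp; omega)
        simp only [hi, if_false, sub_zero]
        nlinarith [hq1 i, hq0 i]
    have h1 := Finset.sum_le_sum (fun i (_ : i ∈ Finset.univ) => hterm i)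
    rw [Finset.sum_sub_distrib, ← Finset.mul_sum, Finset.sum_sub_distrib, hcount, hsum, sub_self,
      mul_zero] at h1
    linarith

/-- Truncated sums over `Fin N` as sums over `range k`. -/
theorem sum_ite_lt_eq_sum_range {N : ℕ} (f : Fin N → ℝ) (k : ℕ) (hk : k ≤ N) :
    (∑ i : Fin N, if i.val < k then f i else 0) =
      ∑ j ∈ Finset.range k, (if h : j < N then f ⟨j, h⟩ else 0) := by
  have h1 : ∀ i : Fin N, (if i.val < k then f i else 0) =
      (fun j : ℕ => if j < k then (if h : j < N then f ⟨j, h⟩ else 0) else 0) i.val := by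
    intro i
    simp [i.isLt]
  rw [Finset.sum_congr rfl (fun i _ => h1 i),
    Fin.sum_univ_eq_sum_range (fun j : ℕ => if j < k then (if h : j < N then f ⟨j, h⟩ else 0) else 0),
    ← Finset.sum_filter]
  congr 1
  ext j
  simp only [Finset.mem_filter, Finset.mem_range]
  omega

/-- Abel summation: monotone weights against a sequence with nonnegative partial sums and zero
total sum. -/
theorem abel_nonpos (N : ℕ) (c d : ℕ → ℝ) (hc : ∀ i, i + 1 < N → c i ≤ c (i + 1))
    (hG : ∀ k ≤ N, 0 ≤ ∑ j ∈ Finset.range k, d j) (hN : ∑ j ∈ Finset.range N, d j = 0) :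
    ∑ i ∈ Finset.range N, c i * d i ≤ 0 := by
  have h := Finset.sum_range_by_parts c d N
  simp only [smul_eq_mul] at h
  rw [h, hN, mul_zero, zero_sub, neg_nonpos]
  refine Finset.sum_nonneg fun i hi => ?_
  rw [Finset.mem_range] at hi
  exact mul_nonneg (sub_nonneg.mpr (hc i (by omega))) (hG (i + 1) (by omega))

/-- Majorisation ⇒ product inequality, in logarithmic form (Karamata for `log`, by Abel
summation): if `g` is antitone and positive, `y` positive, the partial sums of `g` are bounded by
those of `y` and the total sums agree, then `∑ log y ≤ ∑ log g`. -/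
theorem sum_log_le_of_partial_sums {N : ℕ} (g y : Fin N → ℝ) (hg : Antitone g)
    (hgpos : ∀ i, 0 < g i) (hypos : ∀ i, 0 < y i)
    (hpart : ∀ k ≤ N, (∑ i : Fin N, if i.val < k then g i else 0) ≤
      ∑ i : Fin N, if i.val < k then y i else 0)
    (htot : ∑ i, g i = ∑ i, y i) :
    ∑ i, Real.log (y i) ≤ ∑ i, Real.log (g i) := by
  -- termwise `log y - log g ≤ (y - g) / g`
  have hterm : ∀ i, Real.log (y i) - Real.log (g i) ≤ (1 / g i) * (y i - g i) := by
    intro i
    have h1 : Real.log (y i / g i) ≤ y i / g i - 1 :=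
      Real.log_le_sub_one_of_pos (div_pos (hypos i) (hgpos i))
    rw [Real.log_div (hypos i).ne' (hgpos i).ne'] at h1
    have h2 : y i / g i - 1 = (1 / g i) * (y i - g i) := by
      field_simp [(hgpos i).ne']
    linarith
  have hsum : ∑ i, (Real.log (y i) - Real.log (g i)) ≤ ∑ i, (1 / g i) * (y i - g i) :=
    Finset.sum_le_sum fun i _ => hterm i
  -- Abel
  set c : ℕ → ℝ := fun j => if h : j < N then 1 / g ⟨j, h⟩ else 0 with hc
  set d : ℕ → ℝ := fun j => if h : j < N then y ⟨j, h⟩ - g ⟨j, h⟩ else 0 with hd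
  have hpartd : ∀ k ≤ N, ∑ j ∈ Finset.range k, d j =
      (∑ i : Fin N, if i.val < k then y i else 0) - ∑ i : Fin N, if i.val < k then g i else 0 := by
    intro k hk
    rw [← sum_ite_lt_eq_sum_range (fun i => y i - g i) k hk, ← Finset.sum_sub_distrib]
    refine Finset.sum_congr rfl fun i _ => ?_
    split_ifs <;> simp
  have hfull : ∀ f : Fin N → ℝ, (∑ i : Fin N, if i.val < N then f i else 0) = ∑ i, f i := by
    intro f
    refine Finset.sum_congr rfl fun i _ => ?_
    simp [i.isLt]
  have hAbel : ∑ i ∈ Finset.range N, c i * d i ≤ 0 := by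
    refine abel_nonpos N c d ?_ ?_ ?_
    · intro i hi
      have hi0 : i < N := by omega
      simp only [hc, dif_pos hi0, dif_pos hi]
      have hle : g ⟨i + 1, hi⟩ ≤ g ⟨i, hi0⟩ := hg (by rw [Fin.le_def]; simp)
      exact one_div_le_one_div_of_le (hgpos _) hle
    · intro k hk
      rw [hpartd k hk]
      exact sub_nonneg.mpr (hpart k hk)
    · rw [hpartd N le_rfl, hfull, hfull, htot, sub_self]
  have hconv : ∑ i, (1 / g i) * (y i - g i) = ∑ i ∈ Finset.range N, c i * d i := by
    rw [← hfull (fun i => (1 / g i) * (y i - g i)),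
      sum_ite_lt_eq_sum_range (fun i => (1 / g i) * (y i - g i)) N le_rfl]
    refine Finset.sum_congr rfl fun j hj => ?_
    rw [Finset.mem_range] at hj
    simp only [hc, hd, dif_pos hj]
  rw [Finset.sum_sub_distrib] at hsum
  linarith

variable {n : Type*} [Fintype n] [DecidableEq n]

theorem row_normSq_sum {W : Matrix n n ℂ} (h : W * Wᴴ = 1) (i : n) :
    ∑ j, Complex.normSq (W i j) = 1 := by
  have h1 := congrFun (congrFun h i) i
  rw [Matrix.mul_apply, Matrix.one_apply_eq] at h1
  have h2 := congrArg Complex.re h1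
  rw [Complex.re_sum] at h2
  simp only [Matrix.conjTranspose_apply, Complex.one_re] at h2
  rw [← h2]
  refine Finset.sum_congr rfl fun j _ => ?_
  rw [Complex.star_def, Complex.mul_conj, Complex.ofReal_re]

theorem col_normSq_sum {W : Matrix n n ℂ} (h : Wᴴ * W = 1) (j : n) :
    ∑ i, Complex.normSq (W i j) = 1 := by
  have h1 := congrFun (congrFun h j) j
  rw [Matrix.mul_apply, Matrix.one_apply_eq] at h1
  have h2 := congrArg Complex.re h1
  rw [Complex.re_sum] at h2
  simp only [Matrix.conjTranspose_apply, Complex.one_re] at h2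
  rw [← h2]
  refine Finset.sum_congr rfl fun i _ => ?_
  rw [Complex.star_def, mul_comm, Complex.mul_conj, Complex.ofReal_re]

theorem diag_conj_re (W : Matrix n n ℂ) (d : n → ℝ) (j : n) :
    ((Wᴴ * Matrix.diagonal (fun i => (d i : ℂ)) * W) j j).re =
      ∑ i, d i * Complex.normSq (W i j) := by
  rw [Matrix.mul_apply, Complex.re_sum]
  refine Finset.sum_congr rfl fun i _ => ?_
  rw [Matrix.mul_diagonal, Matrix.conjTranspose_apply, Complex.star_def]
  have : (starRingEnd ℂ) (W i j) * (d i : ℂ) * W i j = ((d i * Complex.normSq (W i j) : ℝ) : ℂ) := by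
    rw [Complex.ofReal_mul, ← Complex.mul_conj]; ring
  rw [this, Complex.ofReal_re]

/-- Diagonal sums of a unitary compression are bounded by sums of the largest eigenvalues. -/
theorem sum_diag_unitary_conj_le {A : Matrix n n ℂ} (hA : A.IsHermitian) (V : Matrix n n ℂ)
    (hV1 : star V * V = 1) (hV2 : V * star V = 1) (S : Finset n) :
    ∑ j ∈ S, ((star V * A * V) j j).re ≤
      ∑ i : Fin (Fintype.card n), if i.val < S.card then hA.eigenvalues₀ i else 0 := by
  set U : Matrix n n ℂ := (hA.eigenvectorUnitary : Matrix n n ℂ) with hU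
  have hU1 : star U * U = 1 := Unitary.coe_star_mul_self hA.eigenvectorUnitary
  have hU2 : U * star U = 1 := Unitary.coe_mul_star_self hA.eigenvectorUnitary
  have hAeq : A = U * Matrix.diagonal (fun i => ((hA.eigenvalues i : ℝ) : ℂ)) * star U := by
    have h := hA.spectral_theorem
    rw [Unitary.conjStarAlgAut_apply] at h
    exact h
  set W : Matrix n n ℂ := star U * V with hW
  have hWH : Wᴴ = star V * U := by
    rw [hW, Matrix.conjTranspose_mul, ← Matrix.star_eq_conjTranspose, ← Matrix.star_eq_conjTranspose,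
      star_star]
  have hW1 : W * Wᴴ = 1 := by
    rw [hWH, hW]
    calc star U * V * (star V * U) = star U * (V * star V) * U := by noncomm_ring
      _ = 1 := by rw [hV2, Matrix.mul_one, hU1]
  have hW2 : Wᴴ * W = 1 := by
    rw [hWH, hW]
    calc star V * U * (star U * V) = star V * (U * star U) * V := by noncomm_ring
      _ = 1 := by rw [hU2, Matrix.mul_one, hV1]
  have hconj : star V * A * V = Wᴴ * Matrix.diagonal (fun i => ((hA.eigenvalues i : ℝ) : ℂ)) * W := by
    rw [hWH, hW]
    conv_lhs => rw [hAeq]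
    noncomm_ring
  set p : n → ℝ := fun i => ∑ j ∈ S, Complex.normSq (W i j) with hp
  have hp0 : ∀ i, 0 ≤ p i := fun i => Finset.sum_nonneg fun j _ => Complex.normSq_nonneg _
  have hp1 : ∀ i, p i ≤ 1 := by
    intro i
    rw [← row_normSq_sum hW1 i]
    exact Finset.sum_le_univ_sum_of_nonneg fun j => Complex.normSq_nonneg _
  have hpsum : ∑ i, p i = S.card := by
    rw [hp, Finset.sum_comm]
    simp only [col_normSq_sum hW2]
    simp
  have hLHS : ∑ j ∈ S, ((star V * A * V) j j).re = ∑ i, hA.eigenvalues i * p i := by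
    rw [hconj]
    simp only [diag_conj_re]
    rw [Finset.sum_comm]
    refine Finset.sum_congr rfl fun i _ => ?_
    rw [hp, Finset.mul_sum]
  rw [hLHS]
  set e : Fin (Fintype.card n) ≃ n := Fintype.equivOfCardEq (Fintype.card_fin _) with he
  have hre : ∑ i, hA.eigenvalues i * p i = ∑ m, hA.eigenvalues₀ m * p (e m) := by
    rw [← Equiv.sum_comp e]
    refine Finset.sum_congr rfl fun m _ => ?_
    show hA.eigenvalues₀ (e.symm (e m)) * p (e m) = _
    rw [Equiv.symm_apply_apply]
  rw [hre]
  refine knapsack_le hA.eigenvalues₀ (fun m => p (e m)) hA.eigenvalues₀_antitone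
    (fun m => hp0 _) (fun m => hp1 _) S.card (Finset.card_le_univ S) ?_
  rw [Equiv.sum_comp e p, hpsum]

/-- Sum of all sorted eigenvalues is the (real part of the) trace. -/
theorem sum_eigenvalues₀_eq_trace_re {A : Matrix n n ℂ} (hA : A.IsHermitian) :
    ∑ i, hA.eigenvalues₀ i = A.trace.re := by
  rw [hA.trace_eq_sum_eigenvalues, Complex.re_sum]
  have hre : ∀ x : ℝ, Complex.re (RCLike.ofReal x : ℂ) = x := fun x => rfl
  simp only [hre]
  set e : Fin (Fintype.card n) ≃ n := Fintype.equivOfCardEq (Fintype.card_fin _) with he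
  rw [← Equiv.sum_comp e]
  refine Finset.sum_congr rfl fun m _ => ?_
  show _ = hA.eigenvalues₀ (e.symm (e m))
  rw [Equiv.symm_apply_apply]

/-- Ky Fan, total: the eigenvalue sums add up. -/
theorem kyFan_total {A B : Matrix n n ℂ} (hA : A.IsHermitian) (hB : B.IsHermitian) :
    ∑ i, (hA.add hB).eigenvalues₀ i = ∑ i, (hA.eigenvalues₀ i + hB.eigenvalues₀ i) := by
  rw [Finset.sum_add_distrib, sum_eigenvalues₀_eq_trace_re, sum_eigenvalues₀_eq_trace_re,
    sum_eigenvalues₀_eq_trace_re, Matrix.trace_add, Complex.add_re]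

/-- **Ky Fan's inequality**: partial sums of the sorted eigenvalues of `A + B` are bounded by
the partial sums of the sorted eigenvalues of `A` plus those of `B`. -/
theorem kyFan_partial_sums {A B : Matrix n n ℂ} (hA : A.IsHermitian) (hB : B.IsHermitian)
    (k : ℕ) (hk : k ≤ Fintype.card n) :
    (∑ i : Fin (Fintype.card n), if i.val < k then (hA.add hB).eigenvalues₀ i else 0) ≤
      ∑ i : Fin (Fintype.card n), if i.val < k then hA.eigenvalues₀ i + hB.eigenvalues₀ i else 0 := by
  have hC := hA.add hB
  set V : Matrix n n ℂ := ((hA.add hB).eigenvectorUnitary : Matrix n n ℂ) with hV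
  have hV1 : star V * V = 1 := Unitary.coe_star_mul_self (hA.add hB).eigenvectorUnitary
  have hV2 : V * star V = 1 := Unitary.coe_mul_star_self (hA.add hB).eigenvectorUnitary
  have hCeq : A + B = V * Matrix.diagonal (fun i => (((hA.add hB).eigenvalues i : ℝ) : ℂ)) * star V := by
    have h := (hA.add hB).spectral_theorem
    rw [Unitary.conjStarAlgAut_apply] at h
    exact h
  have hdiag : star V * (A + B) * V =
      Matrix.diagonal (fun i => (((hA.add hB).eigenvalues i : ℝ) : ℂ)) := by
    conv_lhs => rw [hCeq]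
    calc star V * (V * Matrix.diagonal (fun i => (((hA.add hB).eigenvalues i : ℝ) : ℂ)) * star V) * V
        = (star V * V) * Matrix.diagonal (fun i => (((hA.add hB).eigenvalues i : ℝ) : ℂ))
            * (star V * V) := by noncomm_ring
      _ = _ := by rw [hV1, Matrix.one_mul, Matrix.mul_one]
  set e : Fin (Fintype.card n) ≃ n := Fintype.equivOfCardEq (Fintype.card_fin _) with he
  set S : Finset n := Finset.univ.filter (fun j : n => (e.symm j).val < k) with hS
  have hScard : S.card = k := by
    have h1 : S = (Finset.univ.filter (fun m : Fin (Fintype.card n) => m.val < k)).map e.toEmbedding := by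
      ext j
      simp only [hS, Finset.mem_filter, Finset.mem_univ, true_and, Finset.mem_map,
        Equiv.coe_toEmbedding]
      constructor
      · intro h; exact ⟨e.symm j, h, Equiv.apply_symm_apply e j⟩
      · rintro ⟨m, hm, rfl⟩; rwa [Equiv.symm_apply_apply]
    rw [h1, Finset.card_map, Fin.card_filter_val_lt, min_eq_right hk]
  have hgam : ∀ j, (hA.add hB).eigenvalues j = ((star V * A * V) j j).re + ((star V * B * V) j j).re := by
    intro j
    have h1 : star V * (A + B) * V = star V * A * V + star V * B * V := by noncomm_ring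
    have h2 := congrFun (congrFun hdiag j) j
    rw [h1, Matrix.add_apply, Matrix.diagonal_apply_eq] at h2
    have h3 := congrArg Complex.re h2
    rw [Complex.add_re, Complex.ofReal_re] at h3
    exact h3.symm
  have hL : (∑ i : Fin (Fintype.card n), if i.val < k then (hA.add hB).eigenvalues₀ i else 0) =
      ∑ j ∈ S, (hA.add hB).eigenvalues j := by
    rw [hS, Finset.sum_filter, ← Equiv.sum_comp e]
    refine Finset.sum_congr rfl fun m _ => ?_
    rw [Equiv.symm_apply_apply]
    by_cases hm : m.val < k
    · simp only [hm, if_true]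
      show _ = (hA.add hB).eigenvalues₀ (e.symm (e m))
      rw [Equiv.symm_apply_apply]
    · simp only [hm, if_false]
  rw [hL]
  have hsum : ∑ j ∈ S, (hA.add hB).eigenvalues j =
      ∑ j ∈ S, ((star V * A * V) j j).re + ∑ j ∈ S, ((star V * B * V) j j).re := by
    rw [← Finset.sum_add_distrib]
    exact Finset.sum_congr rfl fun j _ => hgam j
  rw [hsum]
  have hAle := sum_diag_unitary_conj_le hA V hV1 hV2 S
  have hBle := sum_diag_unitary_conj_le hB V hV1 hV2 S
  rw [hScard] at hAle hBle
  have hR : (∑ i : Fin (Fintype.card n), if i.val < k then hA.eigenvalues₀ i + hB.eigenvalues₀ i else 0) =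
      (∑ i : Fin (Fintype.card n), if i.val < k then hA.eigenvalues₀ i else 0) +
      ∑ i : Fin (Fintype.card n), if i.val < k then hB.eigenvalues₀ i else 0 := by
    rw [← Finset.sum_add_distrib]
    refine Finset.sum_congr rfl fun m _ => ?_
    split_ifs <;> simp
  rw [hR]
  exact add_le_add hAle hBle

theorem sum_ite_const {N : ℕ} (k : ℕ) (hk : k ≤ N) (c : ℝ) :
    (∑ i : Fin N, if i.val < k then c else 0) = k * c := by
  rw [Finset.sum_ite, Finset.sum_const_zero, add_zero, Finset.sum_const, nsmul_eq_mul,
    Fin.card_filter_val_lt, min_eq_right hk]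

/-- **E5, Ky Fan in hockey-stick form.** -/
theorem kyFan_hockey {A B : Matrix n n ℂ} (hA : A.IsHermitian) (hB : B.IsHermitian) (τ : ℝ) :
    ∑ j, max ((hA.add hB).eigenvalues₀ j - τ) 0 ≤
      ∑ k, max (hA.eigenvalues₀ k + hB.eigenvalues₀ k - τ) 0 := by
  set γ := (hA.add hB).eigenvalues₀ with hγ
  set q : Fin (Fintype.card n) → ℝ := fun j => if τ < γ j then 1 else 0 with hq
  set m : ℕ := (Finset.univ.filter (fun j : Fin (Fintype.card n) => τ < γ j)).card with hm
  have hmN : m ≤ Fintype.card n := by
    have := Finset.card_le_univ (Finset.univ.filter (fun j : Fin (Fintype.card n) => τ < γ j))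
    simpa using this
  have hqsum : ∑ j, q j = m := by
    rw [hq, Finset.sum_ite, Finset.sum_const_zero, add_zero, Finset.sum_const, nsmul_eq_mul,
      mul_one]
  have h1 : ∑ j, max (γ j - τ) 0 = ∑ j, γ j * q j - τ * m := by
    rw [← hqsum, Finset.mul_sum, ← Finset.sum_sub_distrib]
    refine Finset.sum_congr rfl fun j _ => ?_
    by_cases hj : τ < γ j
    · simp only [hq, hj, if_true, mul_one]
      exact max_eq_left (by linarith)
    · simp only [hq, hj, if_false, mul_zero, sub_zero]
      exact max_eq_right (by linarith)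
  have h2 : ∑ j, γ j * q j ≤ ∑ j : Fin (Fintype.card n), if j.val < m then γ j else 0 :=
    knapsack_le γ q (hA.add hB).eigenvalues₀_antitone
      (fun j => by simp only [hq]; split_ifs <;> norm_num)
      (fun j => by simp only [hq]; split_ifs <;> norm_num) m hmN hqsum
  have h3 := kyFan_partial_sums hA hB m hmN
  have h4 : (∑ j : Fin (Fintype.card n),
        if j.val < m then hA.eigenvalues₀ j + hB.eigenvalues₀ j else 0) - τ * m =
      ∑ j : Fin (Fintype.card n),
        if j.val < m then hA.eigenvalues₀ j + hB.eigenvalues₀ j - τ else 0 := by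
    rw [mul_comm, ← sum_ite_const m hmN τ, ← Finset.sum_sub_distrib]
    refine Finset.sum_congr rfl fun j _ => ?_
    split_ifs <;> simp
  have h5 : (∑ j : Fin (Fintype.card n),
        if j.val < m then hA.eigenvalues₀ j + hB.eigenvalues₀ j - τ else 0) ≤
      ∑ k, max (hA.eigenvalues₀ k + hB.eigenvalues₀ k - τ) 0 := by
    refine Finset.sum_le_sum fun j _ => ?_
    split_ifs
    · exact le_max_left _ _
    · exact le_max_right _ _
  rw [h1]
  linarith

/-- `det (1 + C) = ∏ (1 + eigenvalue)` for Hermitian `C`, real-part form with sorted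
eigenvalues. -/
theorem det_one_add_re_eq_prod {C : Matrix n n ℂ} (hC : C.IsHermitian) :
    (1 + C).det = ((∏ j, (1 + hC.eigenvalues₀ j) : ℝ) : ℂ) := by
  set V : Matrix n n ℂ := (hC.eigenvectorUnitary : Matrix n n ℂ) with hV
  have hV2 : V * star V = 1 := Unitary.coe_mul_star_self hC.eigenvectorUnitary
  have hCeq : C = V * Matrix.diagonal (fun i => ((hC.eigenvalues i : ℝ) : ℂ)) * star V := by
    have h := hC.spectral_theorem
    rw [Unitary.conjStarAlgAut_apply] at h
    exact h
  have h1 : 1 + C = V * Matrix.diagonal (fun i => ((1 + hC.eigenvalues i : ℝ) : ℂ)) * star V := by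
    have hd : Matrix.diagonal (fun i => ((1 + hC.eigenvalues i : ℝ) : ℂ)) =
        1 + Matrix.diagonal (fun i => ((hC.eigenvalues i : ℝ) : ℂ)) := by
      rw [← Matrix.diagonal_one, Matrix.diagonal_add]
      congr 1
      funext i
      push_cast
      rfl
    rw [hd, Matrix.mul_add, Matrix.add_mul, Matrix.mul_one, hV2, ← hCeq]
  rw [h1, Matrix.det_mul, Matrix.det_mul, Matrix.det_diagonal, mul_right_comm, ← Matrix.det_mul,
    hV2, Matrix.det_one, one_mul]
  rw [← Complex.ofReal_prod]
  congr 1
  set e : Fin (Fintype.card n) ≃ n := Fintype.equivOfCardEq (Fintype.card_fin _) with he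
  rw [← Equiv.prod_comp e]
  refine Finset.prod_congr rfl fun m _ => ?_
  show 1 + hC.eigenvalues₀ (e.symm (e m)) = _
  rw [Equiv.symm_apply_apply]

theorem eigenvalues₀_nonneg {A : Matrix n n ℂ} (hA : A.PosSemidef) (m : Fin (Fintype.card n)) :
    0 ≤ hA.isHermitian.eigenvalues₀ m := by
  set e : Fin (Fintype.card n) ≃ n := Fintype.equivOfCardEq (Fintype.card_fin _) with he
  have h := hA.eigenvalues_nonneg (e m)
  have h2 : hA.isHermitian.eigenvalues (e m) = hA.isHermitian.eigenvalues₀ (e.symm (e m)) := rfl
  rw [h2, Equiv.symm_apply_apply] at h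
  exact h

/-- **E6, Fiedler's inequality in logarithmic form**: for positive semidefinite `A`, `B` with
sorted eigenvalues `α`, `β`: `∑ log (1 + α_k + β_k) ≤ log det (1 + A + B)`. -/
theorem fiedler_log {A B : Matrix n n ℂ} (hA : A.PosSemidef) (hB : B.PosSemidef) :
    ∑ k, Real.log (1 + hA.isHermitian.eigenvalues₀ k + hB.isHermitian.eigenvalues₀ k) ≤
      Real.log ((1 + (A + B)).det.re) := by
  have hAh := hA.isHermitian
  have hBh := hB.isHermitian
  have hC : (A + B).PosSemidef := hA.add hB
  rw [det_one_add_re_eq_prod (hAh.add hBh), Complex.ofReal_re,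
    Real.log_prod (fun j _ => by
      have := eigenvalues₀_nonneg hC j
      have h' : (hAh.add hBh).eigenvalues₀ j = hC.isHermitian.eigenvalues₀ j := rfl
      rw [h']; linarith)]
  have hγ0 : ∀ j, 0 ≤ (hAh.add hBh).eigenvalues₀ j := fun j => eigenvalues₀_nonneg hC j
  refine sum_log_le_of_partial_sums (fun j => 1 + (hAh.add hBh).eigenvalues₀ j)
    (fun k => 1 + hAh.eigenvalues₀ k + hBh.eigenvalues₀ k) ?_ ?_ ?_ ?_ ?_
  · intro i j hij
    have := (hAh.add hBh).eigenvalues₀_antitone hij
    simp only
    linarith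
  · intro j; have := hγ0 j; linarith
  · intro k
    have h1 := eigenvalues₀_nonneg hA k
    have h2 := eigenvalues₀_nonneg hB k
    linarith
  · intro k hk
    have h := kyFan_partial_sums hAh hBh k hk
    have e1 : (∑ i : Fin (Fintype.card n), if i.val < k then 1 + (hAh.add hBh).eigenvalues₀ i else 0) =
        k * 1 + ∑ i : Fin (Fintype.card n), if i.val < k then (hAh.add hBh).eigenvalues₀ i else 0 := by
      rw [← sum_ite_const k hk (1 : ℝ), ← Finset.sum_add_distrib]
      refine Finset.sum_congr rfl fun i _ => ?_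
      split_ifs <;> simp
    have e2 : (∑ i : Fin (Fintype.card n),
          if i.val < k then 1 + hAh.eigenvalues₀ i + hBh.eigenvalues₀ i else 0) =
        k * 1 + ∑ i : Fin (Fintype.card n),
          if i.val < k then hAh.eigenvalues₀ i + hBh.eigenvalues₀ i else 0 := by
      rw [← sum_ite_const k hk (1 : ℝ), ← Finset.sum_add_distrib]
      refine Finset.sum_congr rfl fun i _ => ?_
      split_ifs <;> simp [add_assoc]
    rw [e1, e2]
    linarith
  · have h := kyFan_total hAh hBh
    simp only [Finset.sum_add_distrib] at h ⊢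
    linarith

end Crest.Agent.GAD.KyFan
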