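import Crest.Agent.GAD.Spec.PosCount
import Crest.Agent.GAD.Spec.KyFan

/-!
# Row 341, WP-E, modules E5 / E6 in the exact shapes of the module table

* `Spec.kyFan_hockey` (E5): Ky Fan in hockey-stick form, with Mathlib's unsorted `eigenvalues`
  of `A + B` on the left and the sorted `eigenvalues₀` of `A`, `B` on the right.
* `Spec.fiedler_log` (E6): `∑ log (1 + α_k + β_k) ≤ log det (1 + A + B)` for positive
  semidefinite `A`, `B` with sorted eigenvalues `α`, `β`.

Both are restatements of `Crest.Agent.GAD.KyFan.kyFan_hockey` / `KyFan.fiedler_log`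
(`Spec/KyFan.lean`); nothing new is proved here.
-/

set_option autoImplicit false

namespace Crest.Agent.GAD.Spec

open Matrix
open scoped ComplexOrder

variable {n : Type*} [Fintype n] [DecidableEq n]

/-- Sums over Mathlib's unsorted `eigenvalues` and over the sorted `eigenvalues₀` agree. -/
theorem sum_eigenvalues_eq_sum_eigenvalues₀ {A : Matrix n n ℂ} (hA : A.IsHermitian) (f : ℝ → ℝ) :
    ∑ i, f (hA.eigenvalues i) = ∑ k, f (hA.eigenvalues₀ k) := by
  have h : ∀ i, hA.eigenvalues i
      = hA.eigenvalues₀ ((Fintype.equivOfCardEq (Fintype.card_fin _)).symm i) := fun _ => rfl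
  simp only [h]
  exact Equiv.sum_comp (Fintype.equivOfCardEq (Fintype.card_fin (Fintype.card n))).symm
    (fun k => f (hA.eigenvalues₀ k))

/-- **E5, Ky Fan in hockey-stick form** (exact shape of the module table). -/
theorem kyFan_hockey {A B : Matrix n n ℂ} (hA : A.IsHermitian) (hB : B.IsHermitian) (τ : ℝ) :
    ∑ j, max ((hA.add hB).eigenvalues j - τ) 0
      ≤ ∑ k, max (hA.eigenvalues₀ k + hB.eigenvalues₀ k - τ) 0 := by
  rw [sum_eigenvalues_eq_sum_eigenvalues₀ (hA.add hB) (fun x => max (x - τ) 0)]
  exact KyFan.kyFan_hockey hA hB τ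

/-- **E6, Fiedler's inequality in logarithmic form** (exact shape of the module table). -/
theorem fiedler_log {A B : Matrix n n ℂ} (hA : A.PosSemidef) (hB : B.PosSemidef) :
    ∑ k, Real.log (1 + hA.isHermitian.eigenvalues₀ k + hB.isHermitian.eigenvalues₀ k)
      ≤ Real.log ((1 + A + B).det.re) := by
  have h := KyFan.fiedler_log hA hB
  rwa [← add_assoc] at h

end Crest.Agent.GAD.Spec
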