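import Crest.Agent.GAD.Spec.PosCount
import Crest.Agent.GAD.Count67

/-!
helper67 — row 341, WP-E: the rows E1 (CF-half + witness), E2 (Loewner monotonicity), E3 (inertia,
BOTH directions) and E9 (measurability) of the BLUEPRINT in the exact `posCount` shapes of table
`mod341`, as corollaries of `Crest/Agent/GAD/Count67.lean`.  Everything is in the namespace
`Crest.Agent.GAD.Spec.C67` so that the canonical files `Spec/CF.lean`, `Spec/Mono.lean`,
`Spec/Inertia.lean`, `Spec/Meas.lean` can re-export these statements under the canonical names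
without any clash.
-/

set_option autoImplicit false
set_option linter.unusedSectionVars false

namespace Crest.Agent.GAD.Spec.C67

open Matrix MeasureTheory
open scoped ComplexOrder ENNReal
open Crest.Agent.GAD.Count67

variable {n : Type*} [Fintype n] [DecidableEq n]

theorem posCount_eq_countGt {H : Matrix n n ℂ} (hH : H.IsHermitian) (c : ℝ) :
    posCount H c = countGt hH c :=
  posCount_eq_card hH c

/-- **E1 (CF-half).** -/
theorem finrank_le_posCount {H : Matrix n n ℂ} (hH : H.IsHermitian) (c : ℝ)
    (V : Submodule ℂ (n → ℂ))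
    (hV : ∀ x ∈ V, x ≠ 0 → c * (star x ⬝ᵥ x).re < (star x ⬝ᵥ H *ᵥ x).re) :
    Module.finrank ℂ V ≤ posCount H c := by
  rw [posCount_eq_countGt hH]
  exact finrank_le_countGt hH c V hV

/-- **E1 (witness).** -/
theorem exists_submodule_posCount {H : Matrix n n ℂ} (hH : H.IsHermitian) (c : ℝ) :
    ∃ V : Submodule ℂ (n → ℂ), Module.finrank ℂ V = posCount H c ∧
      ∀ x ∈ V, x ≠ 0 → c * (star x ⬝ᵥ x).re < (star x ⬝ᵥ H *ᵥ x).re := by
  obtain ⟨V, δ, hδ, hfin, hV⟩ := exists_submodule_countGt hH c
  refine ⟨V, by rw [posCount_eq_countGt hH]; exact hfin, ?_⟩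
  intro x hx hx0
  have h1 := hV x hx
  have h2 : 0 < nsq x := nsq_pos hx0
  have h3 : c * nsq x < qf H x := by nlinarith
  exact h3

/-- **E2 (Loewner monotonicity of the count).** -/
theorem posCount_mono {H K : Matrix n n ℂ} (hH : H.IsHermitian) (hKH : (K - H).PosSemidef)
    (c : ℝ) : posCount H c ≤ posCount K c := by
  have hK : K.IsHermitian := by
    have := hKH.isHermitian.add hH
    rwa [sub_add_cancel] at this
  rw [posCount_eq_countGt hH, posCount_eq_countGt hK]
  exact countGt_mono hH hK hKH c

/-- **E2 (Weyl monotonicity of the sorted eigenvalues).** -/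
theorem eigenvalues₀_mono {H K : Matrix n n ℂ} (hH : H.IsHermitian) (hK : K.IsHermitian)
    (hKH : (K - H).PosSemidef) (k : Fin (Fintype.card n)) :
    hH.eigenvalues₀ k ≤ hK.eigenvalues₀ k :=
  Count67.eigenvalues₀_mono hH hK hKH k

/-- **E2 (`n0 ≤ nX`).** -/
theorem posCount_sub_smul_le {X T : Matrix n n ℂ} (hX : X.IsHermitian) (hT : T.PosSemidef)
    {u : ℝ} (hu : 0 ≤ u) (c : ℝ) : posCount (X - (u : ℂ) • T) c ≤ posCount X c := by
  have hsm : ((u : ℂ) • T).PosSemidef := hT.smul (a := (u : ℂ)) (by exact_mod_cast hu)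
  have hH : (X - (u : ℂ) • T).IsHermitian := hX.sub hsm.isHermitian
  apply posCount_mono hH
  rw [sub_sub_cancel]
  exact hsm

/-- **E3 (one-sided inertia)**, the direction used by A4. -/
theorem posCount_sub_le_posCount_conj_inv {d r : Type*} [Fintype d] [DecidableEq d] [Fintype r]
    [DecidableEq r] (a : Matrix d r ℂ) {C : Matrix d d ℂ} (hC : C.PosDef) {u : ℝ} (hu : 0 < u) :
    posCount (a * aᴴ - (u : ℂ) • C) 0 ≤ posCount (aᴴ * C⁻¹ * a) u := by
  have hsm : ((u : ℂ) • C).IsHermitian :=
    (hC.posSemidef.smul (a := (u : ℂ)) (by exact_mod_cast hu.le)).isHermitian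
  have h1 : (a * aᴴ - (u : ℂ) • C).IsHermitian := (isHermitian_mul_conjTranspose_self a).sub hsm
  have h2 : (aᴴ * C⁻¹ * a).IsHermitian := isHermitian_conjTranspose_mul_mul a hC.inv.isHermitian
  rw [posCount_eq_countGt h1, posCount_eq_countGt h2]
  exact countGt_pencil_le a hC hu h1 h2

/-- **E3, the other direction** (so: equality; not needed by the BLUEPRINT). -/
theorem posCount_conj_inv_le_posCount_sub {d r : Type*} [Fintype d] [DecidableEq d] [Fintype r]
    [DecidableEq r] (a : Matrix d r ℂ) {C : Matrix d d ℂ} (hC : C.PosDef) {u : ℝ} (hu : 0 < u) :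
    posCount (aᴴ * C⁻¹ * a) u ≤ posCount (a * aᴴ - (u : ℂ) • C) 0 := by
  have hsm : ((u : ℂ) • C).IsHermitian :=
    (hC.posSemidef.smul (a := (u : ℂ)) (by exact_mod_cast hu.le)).isHermitian
  have h1 : (a * aᴴ - (u : ℂ) • C).IsHermitian := (isHermitian_mul_conjTranspose_self a).sub hsm
  have h2 : (aᴴ * C⁻¹ * a).IsHermitian := isHermitian_conjTranspose_mul_mul a hC.inv.isHermitian
  rw [posCount_eq_countGt h1, posCount_eq_countGt h2]
  exact countGt_le_pencil a hC hu h1 h2

/-- **E9.** -/
theorem measurable_posCount (H : Matrix n n ℂ) : Measurable (posCount H) := by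
  by_cases hH : H.IsHermitian
  · have h : posCount H = fun c => ∑ i, if c < hH.eigenvalues i then 1 else 0 := by
      funext c
      rw [posCount_eq_card hH, Finset.card_filter]
    rw [h]
    refine Finset.measurable_sum _ fun i _ => ?_
    exact Measurable.ite measurableSet_Iio measurable_const measurable_const
  · have h : posCount H = fun _ => 0 := by
      funext c
      exact posCount_of_not_isHermitian hH c
    rw [h]
    exact measurable_const

/-- **E9 (joint measurability of `(u, c) ↦ posCount (X - u T) c`).** -/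
theorem measurable_posCount_sub_smul {X T : Matrix n n ℂ} (hX : X.IsHermitian)
    (hT : T.PosSemidef) : Measurable (fun p : ℝ × ℝ => posCount (X - (p.1 : ℂ) • T) p.2) := by
  have hH : ∀ u : ℝ, (X - (u : ℂ) • T).IsHermitian := by
    intro u
    refine hX.sub ?_
    rw [Matrix.IsHermitian, conjTranspose_smul, hT.isHermitian.eq]
    simp
  -- the sorted eigenvalue curves are antitone in `u`
  have hanti : ∀ k : Fin (Fintype.card n), Antitone fun u : ℝ => (hH u).eigenvalues₀ k := by
    intro k u u' huu
    apply Count67.eigenvalues₀_mono (hH u') (hH u)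
    have e : X - (u : ℂ) • T - (X - (u' : ℂ) • T) = ((u' - u : ℝ) : ℂ) • T := by
      push_cast; module
    rw [e]
    exact hT.smul (a := ((u' - u : ℝ) : ℂ)) (by exact_mod_cast sub_nonneg.mpr huu)
  have h : (fun p : ℝ × ℝ => posCount (X - (p.1 : ℂ) • T) p.2)
      = fun p : ℝ × ℝ => ∑ k : Fin (Fintype.card n),
          if p.2 < (hH p.1).eigenvalues₀ k then 1 else 0 := by
    funext p
    rw [posCount_eq_card₀ (hH p.1), Finset.card_filter]
  rw [h]
  refine Finset.measurable_sum _ fun k _ => ?_
  refine Measurable.ite ?_ measurable_const measurable_const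
  exact measurableSet_lt measurable_snd ((hanti k).measurable.comp measurable_fst)

end Crest.Agent.GAD.Spec.C67
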