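import Mathlib
import Crest.Agent.GAD.Inertia
import Crest.Agent.GAD.Spec.PosCount

/-!
# Row 341, WP-E (spectral toolkit), module E3: one-sided inertia

For `a : Matrix d r ℂ`, a positive definite `C : Matrix d d ℂ` and `u > 0`:

  `#{eigenvalues of a aᴴ - u C above 0} ≤ #{eigenvalues of aᴴ C⁻¹ a above u}`

(`posCount_sub_le_posCount_conj_inv`).  The proof transports the positive cone of `a aᴴ - u C`
through `aᴴ` (helper24's counting lemma `Inertia.countGt_le_of_map`), using
`2 re (r* q) - r* C r ≤ q* C⁻¹ q` at `q = a aᴴ v`, `r = u v`.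

Also: the bridge `posCount H c = Inertia.countGt hH c` between the two counting APIs, and the
`posCount` form of the transport lemma (`posCount_le_of_map`, `posCount_le_of_qf_le`).
-/

set_option autoImplicit false
set_option linter.unusedSectionVars false

namespace Crest.Agent.GAD.Spec

open Matrix
open scoped ComplexOrder

variable {n m : Type*} [Fintype n] [DecidableEq n] [Fintype m] [DecidableEq m]

/-- bridge between the two counting APIs (`Spec.posCount` and `Inertia.countGt`). -/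
theorem posCount_eq_countGt {H : Matrix n n ℂ} (hH : H.IsHermitian) (c : ℝ) :
    posCount H c = Inertia.countGt hH c := by
  rw [posCount_eq_card hH]
  unfold Inertia.countGt
  rw [Fintype.card_subtype]

/-- transport of the counting function along a linear map which sends the open cone
`c |v|² < v* A v` into the open cone `c' |w|² < w* B w` (possibly between different sizes). -/
theorem posCount_le_of_map {A : Matrix n n ℂ} {B : Matrix m m ℂ} (hA : A.IsHermitian)
    (hB : B.IsHermitian) (c c' : ℝ) (ψ : (n → ℂ) →ₗ[ℂ] (m → ℂ))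
    (h : ∀ v, c * (star v ⬝ᵥ v).re < (star v ⬝ᵥ A *ᵥ v).re →
      c' * (star (ψ v) ⬝ᵥ ψ v).re < (star (ψ v) ⬝ᵥ B *ᵥ ψ v).re) :
    posCount A c ≤ posCount B c' := by
  rw [posCount_eq_countGt hA, posCount_eq_countGt hB]
  exact Inertia.countGt_le_of_map hA hB c c' ψ h

/-- monotonicity of the counting function in the quadratic-form order. -/
theorem posCount_le_of_qf_le {A B : Matrix n n ℂ} (hA : A.IsHermitian) (hB : B.IsHermitian)
    (c : ℝ) (h : ∀ v, (star v ⬝ᵥ A *ᵥ v).re ≤ (star v ⬝ᵥ B *ᵥ v).re) :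
    posCount A c ≤ posCount B c :=
  posCount_le_of_map hA hB c c LinearMap.id fun v hv => lt_of_lt_of_le hv (h v)

/-- **E3, one-sided inertia.** For `C` positive definite and `u > 0`, the number of positive
eigenvalues of `a aᴴ - u C` is at most the number of eigenvalues of `aᴴ C⁻¹ a` above `u`. -/
theorem posCount_sub_le_posCount_conj_inv {d r : Type*} [Fintype d] [DecidableEq d] [Fintype r]
    [DecidableEq r] (a : Matrix d r ℂ) {C : Matrix d d ℂ} (hC : C.PosDef) {u : ℝ} (hu : 0 < u) :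
    posCount (a * aᴴ - (u : ℂ) • C) 0 ≤ posCount (aᴴ * C⁻¹ * a) u := by
  have hCh : C.IsHermitian := hC.isHermitian
  have huC : ((u : ℂ) • C).IsHermitian := by
    unfold Matrix.IsHermitian
    rw [Matrix.conjTranspose_smul, hCh.eq]
    simp
  have hH : (a * aᴴ - (u : ℂ) • C).IsHermitian :=
    (Matrix.isHermitian_mul_conjTranspose_self a).sub huC
  have hK : (aᴴ * C⁻¹ * a).IsHermitian := Matrix.isHermitian_conjTranspose_mul_mul a hCh.inv
  have hCinv : C * C⁻¹ = 1 :=
    Matrix.mul_nonsing_inv _ ((Matrix.isUnit_iff_isUnit_det _).1 hC.isUnit)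
  rw [posCount_eq_countGt hH, posCount_eq_countGt hK]
  refine Inertia.countGt_le_of_map hH hK 0 u (Matrix.mulVecLin aᴴ) fun v hv => ?_
  rw [Inertia.qf_sub, Inertia.qf_smul, Inertia.qf_mul_conjTranspose] at hv
  simp only [Matrix.mulVecLin_apply]
  rw [Inertia.qf_conj]
  have hV := Inertia.two_re_sub_qf_le hC.posSemidef hCh.inv hCinv (a *ᵥ aᴴ *ᵥ v) ((u : ℂ) • v)
  have e1 : (star ((u : ℂ) • v) ⬝ᵥ a *ᵥ aᴴ *ᵥ v).re = u * Inertia.nsq (aᴴ *ᵥ v) := by
    have e0 : star v ⬝ᵥ a *ᵥ aᴴ *ᵥ v = star (aᴴ *ᵥ v) ⬝ᵥ aᴴ *ᵥ v := by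
      rw [Matrix.star_mulVec, Matrix.conjTranspose_conjTranspose, Matrix.dotProduct_mulVec]
    rw [star_smul, smul_dotProduct, e0, smul_eq_mul, Complex.star_def, Complex.conj_ofReal,
      Complex.re_ofReal_mul]
    rfl
  rw [e1, Inertia.qf_smul_vec] at hV
  -- hv : 0 * |v|² < p - u q,  hV : 2 (u p) - u² q ≤ qf C⁻¹ (a aᴴ v),  goal : u p < qf C⁻¹ (a aᴴ v)
  have h2 : u * (u * Inertia.qf C v) < u * Inertia.nsq (aᴴ *ᵥ v) :=
    mul_lt_mul_of_pos_left (by linarith) hu
  nlinarith [h2, hV]

end Crest.Agent.GAD.Spec
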