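import Mathlib
import Crest.Agent.GAD.Spec.CF

/-!
# Row 341, WP-E, module E2: Loewner monotonicity of `posCount` and of the sorted eigenvalues
-/

set_option autoImplicit false
set_option linter.unusedSectionVars false

namespace Crest.Agent.GAD.Spec

open Matrix
open scoped ComplexOrder

variable {n : Type*} [Fintype n] [DecidableEq n]

theorem isHermitian_of_sub_posSemidef {H K : Matrix n n ℂ} (hH : H.IsHermitian)
    (hKH : (K - H).PosSemidef) : K.IsHermitian := by
  have h : K = H + (K - H) := by abel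
  rw [h]
  exact hH.add hKH.isHermitian

theorem isHermitian_ofReal_smul {T : Matrix n n ℂ} (hT : T.IsHermitian) (u : ℝ) :
    ((u : ℂ) • T).IsHermitian := by
  unfold Matrix.IsHermitian
  rw [Matrix.conjTranspose_smul, hT.eq]
  simp

theorem isHermitian_sub_smul {X T : Matrix n n ℂ} (hX : X.IsHermitian) (hT : T.IsHermitian)
    (u : ℝ) : (X - (u : ℂ) • T).IsHermitian :=
  hX.sub (isHermitian_ofReal_smul hT u)

/-- quadratic forms are monotone in the Loewner order -/
theorem quadForm_le_of_sub_posSemidef {H K : Matrix n n ℂ} (hKH : (K - H).PosSemidef)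
    (x : n → ℂ) : (star x ⬝ᵥ H *ᵥ x).re ≤ (star x ⬝ᵥ K *ᵥ x).re := by
  have h1 : star x ⬝ᵥ K *ᵥ x = star x ⬝ᵥ H *ᵥ x + star x ⬝ᵥ (K - H) *ᵥ x := by
    rw [Matrix.sub_mulVec, dotProduct_sub]
    ring
  have h2 : 0 ≤ (star x ⬝ᵥ (K - H) *ᵥ x).re :=
    (Complex.nonneg_iff.1 (hKH.dotProduct_mulVec_nonneg x)).1
  rw [h1, Complex.add_re]
  linarith

/-- **E2.** `posCount` is monotone in the Loewner order. -/
theorem posCount_mono {H K : Matrix n n ℂ} (hH : H.IsHermitian) (hKH : (K - H).PosSemidef)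
    (c : ℝ) : posCount H c ≤ posCount K c := by
  have hK := isHermitian_of_sub_posSemidef hH hKH
  obtain ⟨V, hVdim, hVpos⟩ := exists_submodule_posCount hH c
  rw [← hVdim]
  exact finrank_le_posCount hK c V fun x hx hx0 =>
    lt_of_lt_of_le (hVpos x hx hx0) (quadForm_le_of_sub_posSemidef hKH x)

/-- **E2.** The sorted eigenvalues are monotone in the Loewner order (Weyl). -/
theorem eigenvalues₀_mono {H K : Matrix n n ℂ} (hH : H.IsHermitian) (hK : K.IsHermitian)
    (hKH : (K - H).PosSemidef) (k : Fin (Fintype.card n)) :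
    hH.eigenvalues₀ k ≤ hK.eigenvalues₀ k := by
  rw [eigenvalues₀_le_iff hH]
  exact le_trans (posCount_mono hH hKH _) ((eigenvalues₀_le_iff hK _ k).1 le_rfl)

/-- **E2.** Subtracting a nonnegative multiple of a PSD matrix lowers the count. -/
theorem posCount_sub_smul_le {X T : Matrix n n ℂ} (hX : X.IsHermitian) (hT : T.PosSemidef)
    {u : ℝ} (hu : 0 ≤ u) (c : ℝ) : posCount (X - (u : ℂ) • T) c ≤ posCount X c := by
  refine posCount_mono (isHermitian_sub_smul hX hT.isHermitian u) ?_ c
  have h : X - (X - (u : ℂ) • T) = (u : ℂ) • T := by abel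
  rw [h]
  exact hT.smul (by exact_mod_cast hu)

/-- the count of `X - u T` is antitone in `u` (for PSD `T`) -/
theorem posCount_sub_smul_antitone {X T : Matrix n n ℂ} (hX : X.IsHermitian) (hT : T.PosSemidef)
    (c : ℝ) : Antitone fun u : ℝ => posCount (X - (u : ℂ) • T) c := by
  intro u u' huu'
  refine posCount_mono (isHermitian_sub_smul hX hT.isHermitian u') ?_ c
  have h : X - (u : ℂ) • T - (X - (u' : ℂ) • T) = ((u' - u : ℝ) : ℂ) • T := by
    push_cast
    rw [sub_smul]
    abel
  rw [h]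
  exact hT.smul (by exact_mod_cast sub_nonneg.2 huu')

/-- the sorted eigenvalues of `X - u T` are antitone in `u` (for PSD `T`) -/
theorem eigenvalues₀_sub_smul_antitone {X T : Matrix n n ℂ} (hX : X.IsHermitian)
    (hT : T.PosSemidef) (k : Fin (Fintype.card n)) :
    Antitone fun u : ℝ => (isHermitian_sub_smul hX hT.isHermitian u).eigenvalues₀ k := by
  intro u u' huu'
  refine eigenvalues₀_mono _ _ ?_ k
  have h : X - (u : ℂ) • T - (X - (u' : ℂ) • T) = ((u' - u : ℝ) : ℂ) • T := by
    push_cast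
    rw [sub_smul]
    abel
  rw [h]
  exact hT.smul (by exact_mod_cast sub_nonneg.2 huu')

end Crest.Agent.GAD.Spec
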