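import Mathlib
import Crest.Agent.GAD.Spec.Mono

/-!
# Row 341, WP-E, module E9: measurability of the counting functions
-/

set_option autoImplicit false
set_option linter.unusedSectionVars false

namespace Crest.Agent.GAD.Spec

open Matrix MeasureTheory
open scoped ComplexOrder

variable {n : Type*} [Fintype n] [DecidableEq n]

/-- `c ↦ posCount H c` is measurable (it is antitone). -/
theorem measurable_posCount (H : Matrix n n ℂ) : Measurable (posCount H) :=
  (posCount_antitone H).measurable

/-- **E9.** Joint measurability of `(u, c) ↦ posCount (X - u T) c` for Hermitian `X`, PSD `T`. -/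
theorem measurable_posCount_sub_smul {X T : Matrix n n ℂ} (hX : X.IsHermitian)
    (hT : T.PosSemidef) :
    Measurable (fun p : ℝ × ℝ => posCount (X - (p.1 : ℂ) • T) p.2) := by
  refine measurable_of_Ioi fun k => ?_
  by_cases hk : k < Fintype.card n
  · have hset : (fun p : ℝ × ℝ => posCount (X - (p.1 : ℂ) • T) p.2) ⁻¹' Set.Ioi k
        = {p : ℝ × ℝ | p.2 <
            (isHermitian_sub_smul hX hT.isHermitian p.1).eigenvalues₀ ⟨k, hk⟩} := by
      ext p
      simp only [Set.mem_preimage, Set.mem_Ioi, Set.mem_ofPred_eq]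
      exact (lt_eigenvalues₀_iff (isHermitian_sub_smul hX hT.isHermitian p.1) p.2 ⟨k, hk⟩).symm
    rw [hset]
    have hg : Measurable fun u : ℝ =>
        (isHermitian_sub_smul hX hT.isHermitian u).eigenvalues₀ ⟨k, hk⟩ :=
      (eigenvalues₀_sub_smul_antitone hX hT ⟨k, hk⟩).measurable
    exact measurableSet_lt measurable_snd (hg.comp measurable_fst)
  · have hset : (fun p : ℝ × ℝ => posCount (X - (p.1 : ℂ) • T) p.2) ⁻¹' Set.Ioi k = ∅ := by
      ext p
      simp only [Set.mem_preimage, Set.mem_Ioi, Set.mem_empty_iff_false, iff_false, not_lt]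
      exact le_trans (posCount_le_card _ _) (not_lt.1 hk)
    rw [hset]
    exact MeasurableSet.empty

/-- **E9 (WP-A form).** `(u, s) ↦ posCount (X - u T) (u * s)` is measurable. -/
theorem measurable_posCount_sub_smul_mul {X T : Matrix n n ℂ} (hX : X.IsHermitian)
    (hT : T.PosSemidef) :
    Measurable (fun p : ℝ × ℝ => posCount (X - (p.1 : ℂ) • T) (p.1 * p.2)) :=
  (measurable_posCount_sub_smul hX hT).comp
    (measurable_fst.prodMk (measurable_fst.mul measurable_snd))

/-- `(u, s) ↦ posCount X (u * s)` is measurable. -/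
theorem measurable_posCount_mul (X : Matrix n n ℂ) :
    Measurable (fun p : ℝ × ℝ => posCount X (p.1 * p.2)) :=
  (measurable_posCount X).comp (measurable_fst.mul measurable_snd)

end Crest.Agent.GAD.Spec
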